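import Vale.Agent.P112.H172.AnaNum
import Vale.Agent.P112.T580.Ana4

/-!
# P112, chapter (G): `StAna`, from `ana_core` (helper580) and `ana_num`
-/

open MeasureTheory Set Real
open scoped ENNReal

namespace Vale.Agent.P112.H172.AnaFin

open Vale.Agent.P112.H172.Num (NB bet pp log_m3 bet_ge bet_le pp_ge two_pp exp_eq HeartNum GainNum
  ana_num mul_rpow_34)
open Vale.Agent.P112.H646.Gain (Out StAna)
open Vale.Agent.P112.H8 (Bxs)
open Vale.Agent.P112.T580.Ana (TT EE TT_nonneg ana_core)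

/-- the lower threshold of the number of active tubes -/
noncomputable def MM (L : ℝ) : ℕ := ⌈exp (L / 10)⌉₊

theorem MM_ge (L : ℝ) : exp (L / 10) ≤ MM L := Nat.le_ceil _

theorem MM_one {L : ℝ} : 1 ≤ MM L := by
  have : 0 < MM L := Nat.ceil_pos.2 (exp_pos _)
  omega

theorem MM_le {L : ℝ} (hL : 0 ≤ L) : (MM L : ℝ) ≤ 2 * exp (L / 10) := by
  have h1 : (MM L : ℝ) < exp (L / 10) + 1 := Nat.ceil_lt_add_one (exp_pos _).le
  have h2 : 1 ≤ exp (L / 10) := Real.one_le_exp (by positivity)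
  linarith

section
variable {B m r K : ℕ} {c1 L H0 θ δ k0 R : ℝ}

theorem half_eq (x : ℝ) : x ^ (1 / 2 : ℝ) = √x := (Real.sqrt_eq_rpow x).symm

theorem M0_gain (hc : 0 < c1) (hc4 : c1 ≤ 1 / 4) (hR : 1 ≤ R) :
    (((MM L : ℕ) : ℝ) ^ (-((2 * pp c1 m * (1 - bet c1 m) - 1) / (pp c1 m - 1))) * (2 * R)) ^
      (1 - 1 / pp c1 m) ≤
    exp (-(c1 * (L / 10) / Real.log (m + 3))) * (2 * R) := by
  have hp := pp_ge (m := m) hc hc4
  have hlg := log_m3 m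
  have hp1 : 0 ≤ 1 - 1 / pp c1 m := by
    have : 1 / pp c1 m ≤ 1 := by
      rw [div_le_one (by linarith)]
      linarith
    linarith
  have hp2 : 1 - 1 / pp c1 m ≤ 1 := by
    have : 0 ≤ 1 / pp c1 m := by positivity
    linarith
  have hM : (0 : ℝ) < MM L := (exp_pos _).trans_le (MM_ge L)
  rw [Real.mul_rpow (by positivity) (by positivity), ← Real.rpow_mul hM.le, neg_mul,
    exp_eq hc hc4]
  have h1 : (2 * R) ^ (1 - 1 / pp c1 m) ≤ 2 * R := by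
    calc (2 * R) ^ (1 - 1 / pp c1 m) ≤ (2 * R) ^ (1 : ℝ) :=
          Real.rpow_le_rpow_of_exponent_le (by linarith) hp2
      _ = 2 * R := Real.rpow_one _
  have h2 : ((MM L : ℕ) : ℝ) ^ (-(1 / pp c1 m)) ≤ exp (-(c1 * (L / 10) / Real.log (m + 3))) := by
    calc ((MM L : ℕ) : ℝ) ^ (-(1 / pp c1 m)) ≤ (exp (L / 10)) ^ (-(1 / pp c1 m)) :=
          Real.rpow_le_rpow_of_nonpos (exp_pos _) (MM_ge L) (by
            have : 0 ≤ 1 / pp c1 m := by positivity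
            linarith)
      _ = exp (-(c1 * (L / 10) / Real.log (m + 3))) := by
          rw [← Real.exp_mul]
          congr 1
          unfold pp
          have h3 : Real.log ((m : ℝ) + 3) ≠ 0 := by linarith
          field_simp
  gcongr

theorem TT_le (hc : 0 < c1) (hc4 : c1 ≤ 1 / 4) (hR : 1 ≤ R)
    (h : GainNum B c1 L H0 θ δ k0 (pp c1 m) R r m K) :
    NB B L H0 ^ 2 * TT K (MM L) R H0 θ ((R / 2 ^ r) ^ 2) k0 (pp c1 m) (bet c1 m) ≤ 1 / 36 := by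
  refine le_trans ?_ h.main
  refine mul_le_mul_of_nonneg_left ?_ (sq_nonneg _)
  unfold TT
  have hg := M0_gain (m := m) (L := L) hc hc4 hR
  have hp := pp_ge (m := m) hc hc4
  have e1 : (2 * (8 * R) ^ 2) ^ (1 / 2 : ℝ) = √(2 * (8 * R) ^ 2) := half_eq _
  have e2 : (R * (2 * pp c1 m) ^ 3) ^ (2 : ℝ) = (R * (2 * pp c1 m) ^ 3) ^ 2 :=
    Real.rpow_two _
  rw [e1, e2, half_eq]
  have h3 : √((R * (2 * pp c1 m) ^ 3) ^ 2 *
      (((MM L : ℕ) : ℝ) ^ (-((2 * pp c1 m * (1 - bet c1 m) - 1) / (pp c1 m - 1))) * (2 * R)) ^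
        (1 - 1 / pp c1 m)) ≤
      √((R * (2 * pp c1 m) ^ 3) ^ 2 *
        (exp (-(c1 * (L / 10) / Real.log (m + 3))) * (2 * R))) := by
    apply Real.sqrt_le_sqrt
    gcongr
  have h4 : 0 ≤ √(2 * (8 * R) ^ 2) := Real.sqrt_nonneg _
  have h5 := mul_le_mul_of_nonneg_left h3 h4
  linarith

theorem EE_le (hL : 1 ≤ L) (hH0 : 1 ≤ H0) (hR : 1 ≤ R) (hδ : 0 ≤ δ) {p : ℝ}
    (h : GainNum B c1 L H0 θ δ k0 p R r m K) :
    NB B L H0 * EE K (MM L) R (exp (-L)) (2 * m * K * δ) ((2 : ℝ) ^ (-((m : ℝ) / R))) ≤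
      5 / 6 * exp (-L / 2) := by
  have hNB : 0 ≤ NB B L H0 := by
    unfold NB
    have := Real.log_nonneg hH0
    positivity
  have hA : 0 ≤ NB B L H0 * (64 * R) := by positivity
  have e1 : (((MM L : ℕ) : ℝ) * exp (-L)) ^ (3 / 4 : ℝ) ≤
      2 * (exp (L / 10) * exp (-L)) ^ (3 / 4 : ℝ) := by
    calc (((MM L : ℕ) : ℝ) * exp (-L)) ^ (3 / 4 : ℝ)
        ≤ (2 * (exp (L / 10) * exp (-L))) ^ (3 / 4 : ℝ) := by
          apply Real.rpow_le_rpow (by positivity) _ (by norm_num)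
          calc ((MM L : ℕ) : ℝ) * exp (-L) ≤ 2 * exp (L / 10) * exp (-L) := by
                have := MM_le (L := L) (by linarith)
                gcongr
            _ = _ := by ring
      _ ≤ 2 * (exp (L / 10) * exp (-L)) ^ (3 / 4 : ℝ) := mul_rpow_34 (by norm_num) (by positivity)
  have e2 : ((8 * (2 * m * K * δ)) ^ (1 / 2 : ℝ) * (2 * R)) ^ (3 / 4 : ℝ) ≤
      (6 * R * √(2 * m * K * δ)) ^ (3 / 4 : ℝ) := by
    apply Real.rpow_le_rpow (by positivity) _ (by norm_num)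
    rw [half_eq, Real.sqrt_mul (by norm_num)]
    have h8 : √8 ≤ 3 := by
      rw [Real.sqrt_le_left (by norm_num)]
      norm_num
    have h9 : 0 ≤ √(2 * m * K * δ) := Real.sqrt_nonneg _
    calc √8 * √(2 * m * K * δ) * (2 * R) ≤ 3 * √(2 * m * K * δ) * (2 * R) := by gcongr
      _ = _ := by ring
  have e3 : (2 * R * ((2 : ℝ) ^ (-((m : ℝ) / R))) ^ (1 / 2 : ℝ)) ^ (3 / 4 : ℝ) =
      (2 * R * (2 : ℝ) ^ (-(m / R) / 2)) ^ (3 / 4 : ℝ) := by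
    rw [← Real.rpow_mul (by norm_num)]
    congr 3
    ring
  unfold EE
  rw [e3]
  have g1 := h.low
  have g2 := h.big
  have g3 := h.bad
  have g4 := h.uns
  have f1 := mul_le_mul_of_nonneg_left e1 hA
  have f2 := mul_le_mul_of_nonneg_left e2 hA
  have hex : 0 < exp (-L / 2) := exp_pos _
  calc NB B L H0 * (64 * R * ((((MM L : ℕ) : ℝ) * exp (-L)) ^ (3 / 4 : ℝ) +
        (2 * R / K) ^ (3 / 4 : ℝ) +
        ((8 * (2 * m * K * δ)) ^ (1 / 2 : ℝ) * (2 * R)) ^ (3 / 4 : ℝ) +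
        (2 * R * (2 : ℝ) ^ (-(m / R) / 2)) ^ (3 / 4 : ℝ)))
      = NB B L H0 * (64 * R) * (((MM L : ℕ) : ℝ) * exp (-L)) ^ (3 / 4 : ℝ) +
        NB B L H0 * (64 * R) * (2 * R / K) ^ (3 / 4 : ℝ) +
        NB B L H0 * (64 * R) *
          ((8 * (2 * m * K * δ)) ^ (1 / 2 : ℝ) * (2 * R)) ^ (3 / 4 : ℝ) +
        NB B L H0 * (64 * R) * (2 * R * (2 : ℝ) ^ (-(m / R) / 2)) ^ (3 / 4 : ℝ) := by ring
    _ ≤ 5 / 6 * exp (-L / 2) := by linarith

/-- the last inequality -/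
theorem fin_le (hL : 1 ≤ L) (hH0 : 1 ≤ H0) {N0 : ℕ} {T E V : ℝ} (hV : 0 ≤ V) (hT : 0 ≤ T)
    (hE : 0 ≤ E) (hN : (N0 : ℝ) ≤ 3 + 2 * Real.log H0)
    (h1 : NB B L H0 ^ 2 * T ≤ 1 / 36) (h2 : NB B L H0 * E ≤ 5 / 6 * exp (-L / 2)) :
    N0 * ((exp (-L) * T) ^ (1 / 2 : ℝ) + E) * V * L ^ B ≤ 1 * exp (-L / 2) * V := by
  have hNB : 0 ≤ NB B L H0 := by
    unfold NB
    have := Real.log_nonneg hH0
    positivity
  have hex : √(exp (-L)) = exp (-L / 2) := by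
    rw [Real.sqrt_eq_iff_mul_self_eq (exp_pos _).le (exp_pos _).le, ← Real.exp_add]
    congr 1
    ring
  have h3 : NB B L H0 * (exp (-L) * T) ^ (1 / 2 : ℝ) ≤ exp (-L / 2) / 6 := by
    rw [half_eq, Real.sqrt_mul (exp_pos _).le, hex]
    have h4 : NB B L H0 * √T ≤ 1 / 6 := by
      have h5 : NB B L H0 * √T = √(NB B L H0 ^ 2 * T) := by
        rw [Real.sqrt_mul (by positivity), Real.sqrt_sq hNB]
      rw [h5, Real.sqrt_le_left (by norm_num)]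
      refine h1.trans (by norm_num)
    calc NB B L H0 * (exp (-L / 2) * √T) = exp (-L / 2) * (NB B L H0 * √T) := by ring
      _ ≤ exp (-L / 2) * (1 / 6) := by gcongr
      _ = _ := by ring
  have hS : 0 ≤ (exp (-L) * T) ^ (1 / 2 : ℝ) + E := by positivity
  calc N0 * ((exp (-L) * T) ^ (1 / 2 : ℝ) + E) * V * L ^ B
      ≤ (3 + 2 * Real.log H0) * ((exp (-L) * T) ^ (1 / 2 : ℝ) + E) * V * L ^ B := by gcongr
    _ = (NB B L H0 * (exp (-L) * T) ^ (1 / 2 : ℝ) + NB B L H0 * E) * V := by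
        unfold NB
        ring
    _ ≤ (exp (-L / 2) / 6 + 5 / 6 * exp (-L / 2)) * V := by gcongr
    _ = _ := by ring

end

/-- **`StAna`.** -/
theorem stAna : StAna := by
  obtain ⟨c0, hc0, hcore⟩ := ana_core
  intro c
  obtain ⟨A, hA⟩ := ana_num hc0 c
  refine ⟨A, fun B => ?_⟩
  obtain ⟨C, hC1, hC⟩ := hA B
  refine ⟨C, hC1, fun L hL => ?_⟩
  obtain ⟨H0, θ, H1, Ac, A2, δ, k0, β, p, r, m, K, hH0, hcH, hθ, hθ1, hLr, hH1, hm, hwin,
    hβ, hp, hh, hg⟩ := hC L hL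
  have hL1 : 1 ≤ L := hC1.trans hL
  refine ⟨H0, θ, H1, r, m, hH0, hcH, hθ, hθ1, hLr, hH1, hm, hwin, ?_⟩
  intro ι _ s G V R Qs e N0 Kt _ X hV hR1 hR hQs he hO f hf hf1 hv
  have hgR := hg R hR1 hR
  have hc1 : 0 < min c0 (1 / 4) := lt_min hc0 (by norm_num)
  have hc4 : min c0 (1 / 4) ≤ 1 / 4 := min_le_right _ _
  have hQs0 : 0 < Qs := lt_of_lt_of_le (by positivity) hQs
  have hR0 : 0 ≤ R := by linarith
  have he0 : 0 ≤ e := by rw [he]; positivity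
  have hk0 := hh.k0_pos
  have hδ := hh.δ_pos
  have hmain := hcore ι s G V R H0 θ Qs e H1 m N0 Kt X hO K (MM L) β p Ac A2 (k0 * Qs) δ k0
    (exp (-L)) f hV hR1 (by linarith) hθ hθ1 he0 hk0 hh.β_ge hh.β_half hh.β_le hh.p_one hh.p_β hm
    hh.A2_one hh.Ac_ge hh.H1_ge (by positivity) le_rfl hδ.le hh.safe hh.box
    (hh.sep.trans (by gcongr)) MM_one hh.K_one hh.err hf hf1 (exp_pos _).le hv
  have hT : 0 ≤ TT K (MM L) R H0 θ e k0 p β :=
    TT_nonneg hR0 (by linarith) hθ.le he0 hk0.le (by linarith [hh.p_one])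
  have hE : 0 ≤ EE K (MM L) R (exp (-L)) (2 * m * K * δ) ((2 : ℝ) ^ (-((m : ℝ) / R))) := by
    unfold EE
    positivity
  have h2 := EE_le hL1 hH0.le hR1 hδ.le hgR
  have h1 : NB B L H0 ^ 2 * TT K (MM L) R H0 θ e k0 p β ≤ 1 / 36 := by
    rw [he, hβ, hp]
    rw [hp] at hgR
    exact TT_le hc1 hc4 hR1 hgR
  calc ‖∫ z : ℝ × ℝ, f z * ∑ i, G i (z.1, z.2 - s i * z.1)‖ * L ^ B
      ≤ N0 * ((exp (-L) * TT K (MM L) R H0 θ e k0 p β) ^ (1 / 2 : ℝ) +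
        EE K (MM L) R (exp (-L)) (2 * m * K * δ) ((2 : ℝ) ^ (-((m : ℝ) / R)))) * V * L ^ B := by
        gcongr
    _ ≤ 1 * exp (-L / 2) * V := fin_le hL1 hH0.le hV.le hT hE hO.num h1 h2
    _ ≤ C * exp (-L / 2) * V := by gcongr

end Vale.Agent.P112.H172.AnaFin
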