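import Vale.Agent.P112.H172.Num2

/-!
# P112, chapter (G): the numeric part of `StAna` (H646/GainDefs)
-/

open Filter Real Topology
open scoped ENNReal

namespace Vale.Agent.P112.H172.Num

/-- the number of occupancy levels times the wanted gain -/
noncomputable def NB (B : ℕ) (L H0 : ℝ) : ℝ := (3 + 2 * Real.log H0) * L ^ B

/-- the numbers of the heart -/
structure HeartNum (c0 L H0 θ H1 Ac A2 δ k0 β p Qs : ℝ) (m K : ℕ) : Prop where
  β_ge : 1 - c0 / Real.log (m + 3) ≤ β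
  β_le : β ≤ 1
  β_half : 1 / 2 ≤ β
  p_one : 1 < p
  p_β : 1 ≤ 2 * p * (1 - β)
  m_one : 1 ≤ m
  A2_one : 1 ≤ A2
  Ac_one : 1 ≤ Ac
  Ac_ge : (4 * (m + 1) * A2) ^ (m + 3) ≤ Ac
  H1_ge : 4 * (2 * Ac + 1) ^ (2 * m + 2) ≤ H1
  δ_pos : 0 < δ
  k0_pos : 0 < k0
  safe : 2 * m * K * δ ≤ 1 / 2
  err : (K : ℝ) * (m * (14 * (K : ℝ) ^ 3 / √A2)) ≤ 1
  box : √A2 * ((Ac + 1) * (3 * Ac) ^ (m + 2)) ≤ δ * (k0 * (θ * H0))
  sep : √A2 * ((Ac + 1) * (3 * Ac) ^ (m + 2)) ≤ δ * (k0 * Qs)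
  K_one : 1 ≤ K

/-- the gains; `R` = polylogarithmic factor -/
structure GainNum (B : ℕ) (c1 L H0 θ δ k0 p R : ℝ) (r m K : ℕ) : Prop where
  low : NB B L H0 * (64 * R) * (exp (L / 10) * exp (-L)) ^ (3 / 4 : ℝ) ≤ exp (-L / 2) / 6
  big : NB B L H0 * (64 * R) * (2 * R / K) ^ (3 / 4 : ℝ) ≤ exp (-L / 2) / 6
  bad : NB B L H0 * (64 * R) * (2 * R * (2 : ℝ) ^ (-(m / R) / 2)) ^ (3 / 4 : ℝ) ≤
    exp (-L / 2) / 6
  uns : NB B L H0 * (64 * R) * (6 * R * √(2 * m * K * δ)) ^ (3 / 4 : ℝ) ≤ exp (-L / 2) / 6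
  main : NB B L H0 ^ 2 * (K * (8 * k0 / H0 + 8 / H0 ^ 2 + 2 * k0 ^ 2) * R +
    2 * K * (8 * θ * (8 * R) ^ 2 + 2 * (R / 2 ^ r) ^ 2) +
    2 * √(2 * (8 * R) ^ 2) * √((R * (2 * p) ^ 3) ^ 2 *
      (exp (-(c1 * (L / 10) / Real.log (m + 3))) * (2 * R)))) ≤ 1 / 36

section
variable {C0 L R : ℝ} {k B : ℕ}

theorem NB_le (hL : 5 ≤ L) : NB B L (H0 k L) ≤ L ^ (4 * k + 13 + B) := by
  have hL1 : 1 ≤ L := by linarith
  unfold NB H0
  rw [Real.log_exp]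
  have h1 : 3 + 2 * L ^ (4 * k + 12) ≤ L ^ (4 * k + 13) := by
    have h2 := pow_one_le hL1 (4 * k + 12)
    calc 3 + 2 * L ^ (4 * k + 12) ≤ 5 * L ^ (4 * k + 12) := by linarith
      _ ≤ L * L ^ (4 * k + 12) := by gcongr
      _ = L ^ (4 * k + 13) := by ring
  calc (3 + 2 * L ^ (4 * k + 12)) * L ^ B ≤ L ^ (4 * k + 13) * L ^ B := by gcongr
    _ = L ^ (4 * k + 13 + B) := by rw [← pow_add]

theorem NB_nonneg (hL : 1 ≤ L) : 0 ≤ NB B L (H0 k L) := by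
  unfold NB H0
  rw [Real.log_exp]
  positivity

/-- common form of the four exponentially small terms -/
theorem gain_aux {Y y D : ℝ} {c d : ℕ} (hL : 3000 ≤ L) (hR1 : 1 ≤ R) (hR : R ≤ L ^ c)
    (hD : L ^ d ≤ exp (L / 90)) (hd : 4 * k + 13 + B + 2 * c + 1 ≤ d)
    (hY0 : 0 ≤ Y) (hY : Y ≤ y * R * exp (-D * L)) (hy : y ≤ 6) (hD2 : 3 / 5 ≤ D) :
    NB B L (H0 k L) * (64 * R) * Y ≤ exp (-L / 2) / 6 := by
  have hL1 : 1 ≤ L := by linarith
  have h1 := NB_le (B := B) (k := k) (by linarith : 5 ≤ L)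
  have h0 := NB_nonneg (B := B) (k := k) hL1
  have h2 : NB B L (H0 k L) * (64 * R) * Y ≤ L ^ d * exp (-D * L) / 6 := by
    have hRR : R * R ≤ L ^ (2 * c) := by
      calc R * R ≤ L ^ c * L ^ c := by gcongr
        _ = L ^ (2 * c) := by rw [← pow_add, two_mul]
    calc NB B L (H0 k L) * (64 * R) * Y
        ≤ L ^ (4 * k + 13 + B) * (64 * R) * (6 * R * exp (-D * L)) := by
          gcongr
          refine hY.trans ?_
          gcongr
      _ = (384 * L ^ (4 * k + 13 + B) * (R * R)) * exp (-D * L) := by ring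
      _ ≤ (384 * L ^ (4 * k + 13 + B) * L ^ (2 * c)) * exp (-D * L) := by gcongr
      _ = (384 * L ^ (4 * k + 13 + B + 2 * c)) * exp (-D * L) := by rw [pow_add]; ring
      _ ≤ (L / 6 * L ^ (4 * k + 13 + B + 2 * c)) * exp (-D * L) := by
          gcongr
          linarith
      _ = L ^ (4 * k + 13 + B + 2 * c + 1) * exp (-D * L) / 6 := by ring
      _ ≤ L ^ d * exp (-D * L) / 6 := by
          gcongr
  refine h2.trans ?_
  have h3 : L ^ d * exp (-D * L) ≤ exp (-L / 2) := by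
    calc L ^ d * exp (-D * L) ≤ exp (L / 90) * exp (-D * L) := by gcongr
      _ ≤ exp (-L / 2) := by
          rw [← Real.exp_add]
          apply exp_le_exp.2
          nlinarith
  linarith

theorem mul_rpow_34 {a b : ℝ} (ha : 1 ≤ a) (hb : 0 ≤ b) :
    (a * b) ^ (3 / 4 : ℝ) ≤ a * b ^ (3 / 4 : ℝ) := by
  rw [Real.mul_rpow (by linarith) hb]
  have h1 : a ^ (3 / 4 : ℝ) ≤ a := by
    calc a ^ (3 / 4 : ℝ) ≤ a ^ (1 : ℝ) := Real.rpow_le_rpow_of_exponent_le ha (by norm_num)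
      _ = a := Real.rpow_one a
  have h2 : 0 ≤ b ^ (3 / 4 : ℝ) := Real.rpow_nonneg hb _
  gcongr

theorem exp_rpow_34 (x : ℝ) : (exp x) ^ (3 / 4 : ℝ) = exp (3 / 4 * x) := by
  rw [← Real.exp_mul]
  congr 1
  ring

theorem low_le {c d : ℕ} (hL : 3000 ≤ L) (hR1 : 1 ≤ R) (hR : R ≤ L ^ c)
    (hD : L ^ d ≤ exp (L / 90)) (hd : 4 * k + 13 + B + 2 * c + 1 ≤ d) :
    NB B L (H0 k L) * (64 * R) * (exp (L / 10) * exp (-L)) ^ (3 / 4 : ℝ) ≤
      exp (-L / 2) / 6 := by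
  refine gain_aux (y := 6) (D := 27 / 40) hL hR1 hR hD hd (by positivity) ?_ le_rfl (by norm_num)
  rw [← Real.exp_add, exp_rpow_34]
  have h1 : 3 / 4 * (L / 10 + -L) = -(27 / 40) * L := by ring
  rw [h1]
  have h2 := exp_pos (-(27 / 40) * L)
  nlinarith

theorem big_le {K : ℝ} {c d : ℕ} (hL : 3000 ≤ L) (hR1 : 1 ≤ R) (hR : R ≤ L ^ c)
    (hD : L ^ d ≤ exp (L / 90)) (hd : 4 * k + 13 + B + 2 * c + 1 ≤ d) (hK : exp (2 * L) ≤ K) :
    NB B L (H0 k L) * (64 * R) * (2 * R / K) ^ (3 / 4 : ℝ) ≤ exp (-L / 2) / 6 := by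
  have hK0 : 0 < K := (exp_pos _).trans_le hK
  refine gain_aux (y := 2) (D := 3 / 2) hL hR1 hR hD hd (by positivity) ?_ (by norm_num)
    (by norm_num)
  have h1 : 2 * R / K ≤ (2 * R) * exp (-(2 * L)) := by
    rw [Real.exp_neg, ← div_eq_mul_inv]
    gcongr
  calc (2 * R / K) ^ (3 / 4 : ℝ) ≤ ((2 * R) * exp (-(2 * L))) ^ (3 / 4 : ℝ) := by gcongr
    _ ≤ (2 * R) * (exp (-(2 * L))) ^ (3 / 4 : ℝ) := mul_rpow_34 (by linarith) (exp_pos _).le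
    _ = 2 * R * exp (-(3 / 2) * L) := by
        rw [exp_rpow_34]
        congr 2
        ring

theorem bad_le {m : ℝ} {c d : ℕ} (hL : 3000 ≤ L) (hR1 : 1 ≤ R) (hR : R ≤ L ^ c)
    (hD : L ^ d ≤ exp (L / 90)) (hd : 4 * k + 13 + B + 2 * c + 1 ≤ d) (hm : 10 * L ≤ m / R) :
    NB B L (H0 k L) * (64 * R) * (2 * R * (2 : ℝ) ^ (-(m / R) / 2)) ^ (3 / 4 : ℝ) ≤
      exp (-L / 2) / 6 := by
  refine gain_aux (y := 2) (D := 1) hL hR1 hR hD hd (by positivity) ?_ (by norm_num)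
    (by norm_num)
  have h0 : (2 : ℝ) ^ (-(m / R) / 2) ≤ exp (-(2 * L)) := by
    rw [Real.rpow_def_of_pos (by norm_num)]
    apply exp_le_exp.2
    have h1 := Real.log_two_gt_d9
    nlinarith
  have h00 : 0 ≤ (2 : ℝ) ^ (-(m / R) / 2) := by positivity
  calc (2 * R * (2 : ℝ) ^ (-(m / R) / 2)) ^ (3 / 4 : ℝ)
      ≤ ((2 * R) * exp (-(2 * L))) ^ (3 / 4 : ℝ) := by gcongr
    _ ≤ (2 * R) * (exp (-(2 * L))) ^ (3 / 4 : ℝ) := mul_rpow_34 (by linarith) (exp_pos _).le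
    _ ≤ 2 * R * exp (-1 * L) := by
        rw [exp_rpow_34]
        have h1 : exp (3 / 4 * -(2 * L)) ≤ exp (-1 * L) := exp_le_exp.2 (by linarith)
        gcongr

theorem uns_le {M : ℝ} {c d : ℕ} (hL : 3000 ≤ L) (hR1 : 1 ≤ R) (hR : R ≤ L ^ c)
    (hD : L ^ d ≤ exp (L / 90)) (hd : 4 * k + 13 + B + 2 * c + 1 ≤ d)
    (hM : M ≤ exp (-(4 * L))) :
    NB B L (H0 k L) * (64 * R) * (6 * R * √M) ^ (3 / 4 : ℝ) ≤ exp (-L / 2) / 6 := by
  refine gain_aux (y := 6) (D := 3 / 2) hL hR1 hR hD hd (by positivity) ?_ le_rfl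
    (by norm_num)
  have h0 : √M ≤ exp (-(2 * L)) := by
    rw [Real.sqrt_le_left (exp_pos _).le]
    refine hM.trans (le_of_eq ?_)
    rw [← Real.exp_nat_mul]
    congr 1
    push_cast
    ring
  calc (6 * R * √M) ^ (3 / 4 : ℝ)
      ≤ ((6 * R) * exp (-(2 * L))) ^ (3 / 4 : ℝ) := by gcongr
    _ ≤ (6 * R) * (exp (-(2 * L))) ^ (3 / 4 : ℝ) := mul_rpow_34 (by linarith) (exp_pos _).le
    _ = 6 * R * exp (-(3 / 2) * L) := by
        rw [exp_rpow_34]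
        congr 2
        ring

/-- a polynomial times `exp (-2 L)` -/
theorem tiny {d : ℕ} (hL : 3000 ≤ L) (hD : L ^ d ≤ exp (L / 90)) :
    1028 * (L ^ d * exp (-(2 * L))) ≤ 1 / 108 := by
  have h1 : L ^ d * exp (-(2 * L)) ≤ exp (-L) * exp (-(L / 2)) := by
    calc L ^ d * exp (-(2 * L)) ≤ exp (L / 90) * exp (-(2 * L)) := by gcongr
      _ ≤ exp (-L) * exp (-(L / 2)) := by
        rw [← Real.exp_add, ← Real.exp_add]
        apply exp_le_exp.2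
        linarith
  have h2 : exp (-L) ≤ 1 / 3000 := by
    rw [Real.exp_neg, ← one_div]
    apply one_div_le_one_div_of_le (by norm_num)
    have := Real.add_one_le_exp L
    linarith
  have h3 : exp (-(L / 2)) ≤ 1 / 1500 := by
    rw [Real.exp_neg, ← one_div]
    apply one_div_le_one_div_of_le (by norm_num)
    have := Real.add_one_le_exp (L / 2)
    linarith
  have h4 : exp (-L) * exp (-(L / 2)) ≤ 1 / 3000 * (1 / 1500) := by gcongr
  linarith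

/-- the main term -/
theorem main_le {N H c1 p lg θ k0 Kr E : ℝ} {r d b : ℕ} (hL : 3000 ≤ L) (hR1 : 1 ≤ R)
    (hc1 : 0 < c1) (hlg : 1 ≤ lg) (hp : p = lg / c1)
    (hNR : N ^ 2 * R ^ 3 ≤ L ^ d) (hD : L ^ d ≤ exp (L / 90)) (hH : exp (8 * L) ≤ H)
    (hk0 : k0 = exp (-(4 * L))) (hθ : θ = exp (-(5 * L))) (hK : Kr ≤ exp (3 * L))
    (hr : exp (6 * L) ≤ (2 : ℝ) ^ r) (hE : lg ^ 3 * √E * L ^ b ≤ 1) (hE0 : 0 ≤ E)
    (hb : d + 1 ≤ b) (hLc : 100000 / c1 ^ 3 ≤ L) :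
    N ^ 2 * (Kr * (8 * k0 / H + 8 / H ^ 2 + 2 * k0 ^ 2) * R +
      2 * Kr * (8 * θ * (8 * R) ^ 2 + 2 * (R / 2 ^ r) ^ 2) +
      2 * √(2 * (8 * R) ^ 2) * √((R * (2 * p) ^ 3) ^ 2 * (E * (2 * R)))) ≤ 1 / 36 := by
  have hL1 : 1 ≤ L := by linarith
  have hLd : 0 ≤ L ^ d := by positivity
  have ht := tiny hL hD
  have hH0 : 0 < H := (exp_pos _).trans_le hH
  have hR2 : R ≤ R ^ 3 := by
    calc R = R ^ 1 := (pow_one R).symm
      _ ≤ R ^ 3 := pow_le_pow_right₀ hR1 (by norm_num)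
  have hR3 : R ^ 2 ≤ R ^ 3 := pow_le_pow_right₀ hR1 (by norm_num)
  have hNR1 : N ^ 2 * R ≤ L ^ d := (by gcongr : N ^ 2 * R ≤ N ^ 2 * R ^ 3).trans hNR
  have hNR2 : N ^ 2 * R ^ 2 ≤ L ^ d := (by gcongr : N ^ 2 * R ^ 2 ≤ N ^ 2 * R ^ 3).trans hNR
  -- first term
  have hT1 : Kr * (8 * k0 / H + 8 / H ^ 2 + 2 * k0 ^ 2) ≤ 18 * exp (-(2 * L)) := by
    have e1 : 8 * k0 / H ≤ 8 * exp (-(8 * L)) := by
      rw [div_le_iff₀ hH0]
      have h1 : k0 ≤ 1 := by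
        rw [hk0]
        exact exp_le_one_iff.2 (by linarith)
      have h2 : 1 ≤ exp (-(8 * L)) * H := by
        calc 1 = exp (-(8 * L)) * exp (8 * L) := by rw [← Real.exp_add]; simp
          _ ≤ _ := by gcongr
      linarith
    have e2 : 8 / H ^ 2 ≤ 8 * exp (-(8 * L)) := by
      rw [div_le_iff₀ (by positivity)]
      have h2 : 1 ≤ exp (-(8 * L)) * H := by
        calc 1 = exp (-(8 * L)) * exp (8 * L) := by rw [← Real.exp_add]; simp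
          _ ≤ _ := by gcongr
      have h3 : 1 ≤ H := by
        have := Real.one_le_exp (show 0 ≤ 8 * L by linarith)
        linarith
      have h4 : 1 ≤ exp (-(8 * L)) * H * H := by
        calc (1 : ℝ) = 1 * 1 := by ring
          _ ≤ exp (-(8 * L)) * H * H := by gcongr
      linarith
    have e3 : 2 * k0 ^ 2 = 2 * exp (-(8 * L)) := by
      rw [hk0, ← Real.exp_nat_mul]
      congr 2
      push_cast
      ring
    calc Kr * (8 * k0 / H + 8 / H ^ 2 + 2 * k0 ^ 2)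
        ≤ exp (3 * L) * (8 * exp (-(8 * L)) + 8 * exp (-(8 * L)) + 2 * exp (-(8 * L))) := by
          have h5 : 0 ≤ k0 := by rw [hk0]; positivity
          gcongr
          linarith [e3]
      _ = 18 * exp (-(5 * L)) := by
          have h6 : exp (-(5 * L)) = exp (3 * L) * exp (-(8 * L)) := by
            rw [← Real.exp_add]
            congr 1
            ring
          rw [h6]
          ring
      _ ≤ 18 * exp (-(2 * L)) := by
          have h7 : exp (-(5 * L)) ≤ exp (-(2 * L)) := exp_le_exp.2 (by linarith)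
          linarith
  have hT2 : 2 * Kr * (8 * θ * (8 * R) ^ 2 + 2 * (R / 2 ^ r) ^ 2) ≤ 1028 * R ^ 2 * exp (-(2 * L)) := by
    have e1 : Kr * θ ≤ exp (-(2 * L)) := by
      calc Kr * θ ≤ exp (3 * L) * exp (-(5 * L)) := by rw [hθ]; gcongr
        _ = _ := by
          rw [← Real.exp_add]
          congr 1
          ring
    have e2 : Kr / (2 ^ r) ^ 2 ≤ exp (-(2 * L)) := by
      have h1 : (0 : ℝ) < 2 ^ r := by positivity
      rw [div_le_iff₀ (by positivity)]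
      calc Kr ≤ exp (3 * L) := hK
        _ ≤ exp (10 * L) := exp_le_exp.2 (by linarith)
        _ = exp (-(2 * L)) * (exp (6 * L)) ^ 2 := by
          rw [← Real.exp_nat_mul, ← Real.exp_add]
          congr 1
          push_cast
          ring
        _ ≤ exp (-(2 * L)) * (2 ^ r) ^ 2 := by gcongr
    calc 2 * Kr * (8 * θ * (8 * R) ^ 2 + 2 * (R / 2 ^ r) ^ 2)
        = 1024 * R ^ 2 * (Kr * θ) + 4 * R ^ 2 * (Kr / (2 ^ r) ^ 2) := by
          field_simp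
          ring
      _ ≤ 1024 * R ^ 2 * exp (-(2 * L)) + 4 * R ^ 2 * exp (-(2 * L)) := by gcongr
      _ = _ := by ring
  have hT3 : 2 * √(2 * (8 * R) ^ 2) * √((R * (2 * p) ^ 3) ^ 2 * (E * (2 * R))) ≤
      384 / c1 ^ 3 * R ^ 3 * (lg ^ 3 * √E) := by
    have hp0 : 0 ≤ p := by rw [hp]; positivity
    have e1 : √(2 * (8 * R) ^ 2) ≤ 12 * R := by
      rw [Real.sqrt_le_left (by positivity)]
      nlinarith [sq_nonneg R]
    have e2 : √((R * (2 * p) ^ 3) ^ 2 * (E * (2 * R))) ≤ R * (2 * p) ^ 3 * (√E * (2 * R)) := by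
      rw [Real.sqrt_mul (by positivity), Real.sqrt_sq (by positivity), Real.sqrt_mul hE0]
      have h1 : √(2 * R) ≤ 2 * R := by
        rw [Real.sqrt_le_left (by positivity)]
        nlinarith
      gcongr
    calc 2 * √(2 * (8 * R) ^ 2) * √((R * (2 * p) ^ 3) ^ 2 * (E * (2 * R)))
        ≤ 2 * (12 * R) * (R * (2 * p) ^ 3 * (√E * (2 * R))) := by gcongr
      _ = _ := by
        rw [hp]
        field_simp
        ring
  have hS1 : N ^ 2 * (Kr * (8 * k0 / H + 8 / H ^ 2 + 2 * k0 ^ 2) * R) ≤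
      18 * (L ^ d * exp (-(2 * L))) := by
    calc N ^ 2 * (Kr * (8 * k0 / H + 8 / H ^ 2 + 2 * k0 ^ 2) * R)
        ≤ N ^ 2 * (18 * exp (-(2 * L)) * R) := by gcongr
      _ = 18 * ((N ^ 2 * R) * exp (-(2 * L))) := by ring
      _ ≤ _ := by gcongr
  have hS2 : N ^ 2 * (2 * Kr * (8 * θ * (8 * R) ^ 2 + 2 * (R / 2 ^ r) ^ 2)) ≤
      1028 * (L ^ d * exp (-(2 * L))) := by
    calc N ^ 2 * (2 * Kr * (8 * θ * (8 * R) ^ 2 + 2 * (R / 2 ^ r) ^ 2))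
        ≤ N ^ 2 * (1028 * R ^ 2 * exp (-(2 * L))) := by gcongr
      _ = 1028 * ((N ^ 2 * R ^ 2) * exp (-(2 * L))) := by ring
      _ ≤ _ := by gcongr
  have hS3 : N ^ 2 * (2 * √(2 * (8 * R) ^ 2) * √((R * (2 * p) ^ 3) ^ 2 * (E * (2 * R)))) ≤
      1 / 200 := by
    have e1 : lg ^ 3 * √E * L ^ (d + 1) ≤ 1 := by
      refine le_trans ?_ hE
      have : L ^ (d + 1) ≤ L ^ b := pow_le_pow_right₀ hL1 hb
      gcongr
    have e2 : 384 / c1 ^ 3 ≤ L / 200 := by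
      have h1 : 384 / c1 ^ 3 = 384 / 100000 * (100000 / c1 ^ 3) := by
        field_simp
      rw [h1]
      linarith
    calc N ^ 2 * (2 * √(2 * (8 * R) ^ 2) * √((R * (2 * p) ^ 3) ^ 2 * (E * (2 * R))))
        ≤ N ^ 2 * (384 / c1 ^ 3 * R ^ 3 * (lg ^ 3 * √E)) := by gcongr
      _ = 384 / c1 ^ 3 * (N ^ 2 * R ^ 3) * (lg ^ 3 * √E) := by ring
      _ ≤ L / 200 * L ^ d * (lg ^ 3 * √E) := by gcongr
      _ = lg ^ 3 * √E * L ^ (d + 1) / 200 := by ring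
      _ ≤ 1 / 200 := by gcongr
  have hX : 0 ≤ L ^ d * exp (-(2 * L)) := by positivity
  calc _ = N ^ 2 * (Kr * (8 * k0 / H + 8 / H ^ 2 + 2 * k0 ^ 2) * R) +
        N ^ 2 * (2 * Kr * (8 * θ * (8 * R) ^ 2 + 2 * (R / 2 ^ r) ^ 2)) +
        N ^ 2 * (2 * √(2 * (8 * R) ^ 2) * √((R * (2 * p) ^ 3) ^ 2 * (E * (2 * R)))) := by ring
    _ ≤ 1 / 108 + 1 / 108 + 1 / 200 := by
        refine add_le_add (add_le_add ?_ (hS2.trans ht)) hS3
        linarith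
    _ ≤ 1 / 36 := by norm_num

end

/-- the number of subdivisions -/
noncomputable def rr (L : ℝ) : ℕ := ⌈6 * L / log 2⌉₊

theorem rr_ge {L : ℝ} : exp (6 * L) ≤ (2 : ℝ) ^ rr L := by
  have h2 : 0 < log 2 := Real.log_pos (by norm_num)
  have h1 : 6 * L / log 2 ≤ rr L := Nat.le_ceil _
  rw [← Real.rpow_natCast, Real.rpow_def_of_pos (by norm_num)]
  apply exp_le_exp.2
  rw [div_le_iff₀ h2] at h1
  linarith

theorem rr_le {L : ℝ} (hL : 0 ≤ L) : (2 : ℝ) ^ rr L ≤ 2 * exp (6 * L) := by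
  have h2 : 0 < log 2 := Real.log_pos (by norm_num)
  have h1 : (rr L : ℝ) < 6 * L / log 2 + 1 := Nat.ceil_lt_add_one (by positivity)
  rw [← Real.rpow_natCast]
  calc (2 : ℝ) ^ (rr L : ℝ) ≤ (2 : ℝ) ^ (6 * L / log 2 + 1) :=
        Real.rpow_le_rpow_of_exponent_le (by norm_num) h1.le
    _ = 2 * exp (6 * L) := by
        rw [Real.rpow_add (by norm_num), Real.rpow_one, Real.rpow_def_of_pos (by norm_num),
          mul_div_cancel₀ _ h2.ne', mul_comm]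

theorem L_le_rr {L : ℝ} (hL : 0 ≤ L) : L ≤ rr L := by
  have h2 : 0 < log 2 := Real.log_pos (by norm_num)
  have h1 : 6 * L / log 2 ≤ rr L := Nat.le_ceil _
  have h3 : L ≤ 6 * L / log 2 := by
    rw [le_div_iff₀ h2]
    have := Real.log_two_lt_d9
    nlinarith
  linarith

theorem C0_facts {c1 C0 : ℝ} (hc1 : 0 < c1) (hc1' : c1 ≤ 1 / 4) (hC0 : C0 = 20 / c1 + 10) :
    90 ≤ C0 ∧ 1 / C0 ≤ c1 / 20 := by
  have h1 : 80 ≤ 20 / c1 := by
    rw [le_div_iff₀ hc1]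
    linarith
  refine ⟨by linarith, ?_⟩
  have h2 : c1 / 20 = 1 / (20 / c1) := by field_simp
  rw [h2]
  apply one_div_le_one_div_of_le (by linarith)
  linarith

section
variable {c1 C0 L : ℝ} {c k b : ℕ}

theorem cP_le (hC0 : 90 ≤ C0) (hL3 : 3000 ≤ L) (hk : k = c + 3) :
    L ^ c ≤ P C0 k L := by
  have hL1 : 1 ≤ L := by linarith
  unfold P
  calc L ^ c ≤ L ^ k := pow_le_pow_right₀ hL1 (by omega)
    _ = 1 * L ^ k := (one_mul _).symm
    _ ≤ C0 * L ^ k := by gcongr; linarith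

theorem header_of (hok : OK C0 2 k b L) (hC0 : 90 ≤ C0) (hL3 : 3000 ≤ L) (hk : k = c + 3) :
    1 < H0 k L ∧ L ^ c ≤ H0 k L ∧ L ^ c * H0 k L * H1 2 k L ≤ exp (L ^ (4 * k + 13)) := by
  have hcP := cP_le hC0 hL3 hk
  have hH0 : exp (C0 * L) ≤ H0 k L := hok.H0_ge
  have hH01 : 1 ≤ H0 k L := hok.H0_1
  have hH14 := hok.H1_4
  refine ⟨?_, ?_, ?_⟩
  · have h1 : 1 < exp (C0 * L) := by
      rw [Real.one_lt_exp_iff]
      nlinarith
    linarith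
  · calc L ^ c ≤ P C0 k L := hcP
      _ ≤ exp L := hok.P_exp
      _ ≤ exp (C0 * L) := exp_le_exp.2 (by nlinarith)
      _ ≤ _ := hH0
  · have h0 : 0 ≤ P C0 k L := by linarith [hok.P1]
    have h2 : H0 k L ≤ H0 k L ^ 2 := by nlinarith
    have hexpL1 : 1 ≤ exp (C0 * L) := Real.one_le_exp (by nlinarith)
    have h00 : 0 ≤ H1 2 k L := by linarith
    calc L ^ c * H0 k L * H1 2 k L = L ^ c * 1 * H1 2 k L * H0 k L := by ring
      _ ≤ P C0 k L * exp (C0 * L) * H1 2 k L * H0 k L ^ 2 := by gcongr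
      _ ≤ Q k L := hok.win
      _ = exp (L ^ (4 * k + 13)) := rfl

theorem M_le (hok : OK C0 2 k b L) (hC0 : 90 ≤ C0) (hL3 : 3000 ≤ L) :
    2 * (m k L : ℝ) * K 2 L * del C0 2 k L ≤ exp (-(4 * L)) := by
  refine hok.del_le.trans ?_
  have h1 : exp (-(C0 * L)) ≤ exp (-(4 * L)) := exp_le_exp.2 (by nlinarith)
  have h2 : 0 < exp (-(C0 * L)) := exp_pos _
  linarith

theorem XP_le (hok : OK C0 2 k b L) : X 2 k L ≤ X 2 k L * P C0 k L := by
  have h1 := hok.X_pos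
  have h2 := hok.P1
  nlinarith

theorem box_of (hok : OK C0 2 k b L) (hC0 : 90 ≤ C0) (hL3 : 3000 ≤ L) :
    X 2 k L ≤ del C0 2 k L * (exp (-(4 * L)) * (exp (-(5 * L)) * H0 k L)) := by
  have h1 := hok.box
  refine (XP_le hok).trans (h1.trans ?_)
  have h2 := hok.del_pos
  have hH01 : 1 ≤ H0 k L := hok.H0_1
  have hmargin : exp (-(C0 * L)) * exp (-(C0 * L)) ≤ exp (-(4 * L)) * exp (-(5 * L)) := by
    rw [← Real.exp_add, ← Real.exp_add]
    apply exp_le_exp.2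
    nlinarith
  have h3 : exp (-(C0 * L)) * (exp (-(C0 * L)) * H0 k L) ≤
      exp (-(4 * L)) * (exp (-(5 * L)) * H0 k L) := by
    calc exp (-(C0 * L)) * (exp (-(C0 * L)) * H0 k L) =
          (exp (-(C0 * L)) * exp (-(C0 * L))) * H0 k L := by ring
      _ ≤ (exp (-(4 * L)) * exp (-(5 * L))) * H0 k L := by gcongr
      _ = _ := by ring
  exact mul_le_mul_of_nonneg_left h3 h2.le

theorem sep_of (hok : OK C0 2 k b L) (hC0 : 90 ≤ C0) (hL3 : 3000 ≤ L) :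
    X 2 k L ≤ del C0 2 k L * (exp (-(4 * L)) * (exp (L ^ (4 * k + 13)) / 2 ^ (rr L + 4))) := by
  have h1 := hok.sep
  refine (XP_le hok).trans (h1.trans ?_)
  have h2 := hok.del_pos
  have hr := rr_le (L := L) (by linarith)
  have h4 : exp (-(C0 * L)) ≤ 1 / 2 ^ (rr L + 4) := by
    rw [Real.exp_neg, ← one_div]
    apply one_div_le_one_div_of_le (by positivity)
    calc (2 : ℝ) ^ (rr L + 4) = 16 * 2 ^ rr L := by ring
      _ ≤ 16 * (2 * exp (6 * L)) := by gcongr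
      _ = 32 * exp (6 * L) := by ring
      _ ≤ exp L * exp (6 * L) := by
          gcongr
          have := Real.add_one_le_exp L
          linarith
      _ ≤ exp (C0 * L) := by
          rw [← Real.exp_add]
          apply exp_le_exp.2
          nlinarith
  have h5 : exp (-(C0 * L)) ≤ exp (-(4 * L)) := exp_le_exp.2 (by nlinarith)
  have h3 : exp (-(C0 * L)) * (exp (-(C0 * L)) * Q k L) ≤
      exp (-(4 * L)) * (exp (L ^ (4 * k + 13)) / 2 ^ (rr L + 4)) := by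
    have hQ : 0 < Q k L := exp_pos _
    calc exp (-(C0 * L)) * (exp (-(C0 * L)) * Q k L)
        ≤ exp (-(4 * L)) * (1 / 2 ^ (rr L + 4) * Q k L) := by gcongr
      _ = _ := by
        unfold Q
        ring
  exact mul_le_mul_of_nonneg_left h3 h2.le

theorem heart_of {c0 : ℝ} (hok : OK C0 2 k b L) (hC0 : 90 ≤ C0) (hL3 : 3000 ≤ L) (hc1 : 0 < c1)
    (hc1' : c1 ≤ 1 / 4) (hc10 : c1 ≤ c0) :
    HeartNum c0 L (H0 k L) (exp (-(5 * L))) (H1 2 k L) (Ac 2 k L) (A2 2 L) (del C0 2 k L)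
      (exp (-(4 * L))) (bet c1 (m k L)) (pp c1 (m k L))
      (exp (L ^ (4 * k + 13)) / 2 ^ (rr L + 4)) (m k L) (K 2 L) := by
  have hp4 := pp_ge (m := m k L) hc1 hc1'
  have hlg := log_m3 (m k L)
  refine ⟨?_, bet_le hc1, ?_, by linarith, ?_, hok.m1, hok.A21, hok.Ac1, le_rfl, le_rfl,
    hok.del_pos, exp_pos _, ?_, hok.err, box_of hok hC0 hL3, sep_of hok hC0 hL3, ?_⟩
  · unfold bet
    have h1 : c1 / Real.log ((m k L : ℝ) + 3) ≤ c0 / Real.log ((m k L : ℝ) + 3) := by gcongr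
    linarith
  · have := bet_ge (m := m k L) hc1 hc1'
    linarith
  · rw [two_pp hc1]
    norm_num
  · refine (M_le hok hC0 hL3).trans ?_
    have h1 : exp (-(4 * L)) ≤ 1 / 2 := by
      rw [Real.exp_neg, ← one_div]
      apply one_div_le_one_div_of_le (by norm_num)
      have := Real.add_one_le_exp (4 * L)
      linarith
    exact h1
  · have h1 : (1 : ℝ) ≤ K 2 L := (Real.one_le_exp (by linarith)).trans hok.K_ge
    exact_mod_cast h1

theorem gains_main {R : ℝ} {B : ℕ} (hok : OK C0 2 k b L) (hC0 : 90 ≤ C0) (hL3 : 3000 ≤ L)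
    (hc1 : 0 < c1) (hC0c : 1 / C0 ≤ c1 / 20) (hLc : 100000 / c1 ^ 3 ≤ L)
    (hLb : L ^ b ≤ exp (L / 90)) (hk : k = c + 3) (hb : b = 2 * (4 * k + 13 + B) + 3 * c + 10)
    (hR1 : 1 ≤ R) (hR : R ≤ L ^ c) :
    NB B L (H0 k L) ^ 2 * (K 2 L * (8 * exp (-(4 * L)) / H0 k L + 8 / H0 k L ^ 2 +
      2 * exp (-(4 * L)) ^ 2) * R +
      2 * K 2 L * (8 * exp (-(5 * L)) * (8 * R) ^ 2 + 2 * (R / 2 ^ rr L) ^ 2) +
      2 * √(2 * (8 * R) ^ 2) * √((R * (2 * pp c1 (m k L)) ^ 3) ^ 2 *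
        (exp (-(c1 * (L / 10) / Real.log (m k L + 3))) * (2 * R)))) ≤ 1 / 36 := by
  have hL1 : 1 ≤ L := by linarith
  have hL0 : 0 ≤ L := by linarith
  have hlg := log_m3 (m k L)
  have hK3 : (K 2 L : ℝ) ≤ exp (3 * L) := by
    have := hok.K_le
    have h1 : ((2 : ℝ) + 1) * L = 3 * L := by ring
    rwa [h1] at this
  have hsq : √(exp (-(c1 * (L / 10) / Real.log ((m k L : ℝ) + 3)))) =
      exp (-(c1 * (L / 20) / Real.log ((m k L : ℝ) + 3))) := by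
    rw [Real.sqrt_eq_iff_mul_self_eq (exp_pos _).le (exp_pos _).le, ← Real.exp_add]
    congr 1
    ring
  have hx : L / C0 ≤ c1 * (L / 20) := by
    calc L / C0 = L * (1 / C0) := by ring
      _ ≤ L * (c1 / 20) := by gcongr
      _ = _ := by ring
  have hg := gain_of hok hx
  have h1 := NB_le (B := B) (k := k) (by linarith : 5 ≤ L)
  have h0 := NB_nonneg (B := B) (k := k) hL1
  refine main_le (d := 2 * (4 * k + 13 + B) + 3 * c) (b := b) hL3 hR1 hc1 hlg rfl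
    ?_ ?_ ?_ rfl rfl hK3 rr_ge ?_ (exp_pos _).le (by omega) hLc
  · calc NB B L (H0 k L) ^ 2 * R ^ 3 ≤ (L ^ (4 * k + 13 + B)) ^ 2 * (L ^ c) ^ 3 := by gcongr
      _ = L ^ (2 * (4 * k + 13 + B) + 3 * c) := by
        rw [← pow_mul, ← pow_mul, ← pow_add]
        congr 1
        ring
  · refine le_trans ?_ hLb
    exact pow_le_pow_right₀ hL1 (by omega)
  · exact (exp_le_exp.2 (by nlinarith)).trans hok.H0_ge
  · rw [hsq]
    refine le_trans ?_ hg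
    have h1 : Real.log ((m k L : ℝ) + 3) ^ 3 ≤ Real.log ((m k L : ℝ) + 3) ^ k :=
      pow_le_pow_right₀ hlg (by omega)
    have h2 := hok.P1
    have h3 : 0 ≤ exp (-(c1 * (L / 20) / Real.log ((m k L : ℝ) + 3))) := (exp_pos _).le
    have h4 : 0 ≤ Real.log ((m k L : ℝ) + 3) ^ 3 := by positivity
    calc Real.log ((m k L : ℝ) + 3) ^ 3 *
          exp (-(c1 * (L / 20) / Real.log ((m k L : ℝ) + 3))) * L ^ b
        = 1 * Real.log ((m k L : ℝ) + 3) ^ 3 *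
          exp (-(c1 * (L / 20) / Real.log ((m k L : ℝ) + 3))) * L ^ b := by ring
      _ ≤ _ := by gcongr

theorem gains_of {R : ℝ} {B : ℕ} (hok : OK C0 2 k b L) (hC0 : 90 ≤ C0) (hL3 : 3000 ≤ L)
    (hc1 : 0 < c1) (hC0c : 1 / C0 ≤ c1 / 20) (hLc : 100000 / c1 ^ 3 ≤ L)
    (hLb : L ^ b ≤ exp (L / 90)) (hk : k = c + 3) (hb : b = 2 * (4 * k + 13 + B) + 3 * c + 10)
    (hR1 : 1 ≤ R) (hR : R ≤ L ^ c) :
    GainNum B c1 L (H0 k L) (exp (-(5 * L))) (del C0 2 k L) (exp (-(4 * L))) (pp c1 (m k L)) R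
      (rr L) (m k L) (K 2 L) := by
  have hL1 : 1 ≤ L := by linarith
  have hd : 4 * k + 13 + B + 2 * c + 1 ≤ b := by omega
  refine ⟨low_le hL3 hR1 hR hLb hd, big_le hL3 hR1 hR hLb hd hok.K_ge, ?_,
    uns_le hL3 hR1 hR hLb hd (M_le hok hC0 hL3),
    gains_main hok hC0 hL3 hc1 hC0c hLc hLb hk hb hR1 hR⟩
  refine bad_le hL3 hR1 hR hLb hd ?_
  rw [le_div_iff₀ (by linarith)]
  calc 10 * L * R ≤ 10 * L * L ^ c := by gcongr
    _ = 10 * L ^ (c + 1) := by ring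
    _ ≤ L * L ^ (c + 1) := by gcongr; linarith
    _ = L ^ (c + 2) := by ring
    _ ≤ L ^ (2 * k + 2) := pow_le_pow_right₀ hL1 (by omega)
    _ ≤ _ := hok.m_ge

end

/-- **The numeric part of `StAna`.** -/
theorem ana_num {c0 : ℝ} (hc0 : 0 < c0) (c : ℕ) : ∃ A : ℕ, ∀ B : ℕ, ∃ C : ℝ, 1 ≤ C ∧
    ∀ L : ℝ, C ≤ L → ∃ (H0 θ H1 Ac A2 δ k0 β p : ℝ) (r m K : ℕ),
      1 < H0 ∧ L ^ c ≤ H0 ∧ 0 < θ ∧ θ ≤ 1 ∧ L ≤ r ∧ 1 ≤ H1 ∧ 1 ≤ m ∧
      L ^ c * H0 * H1 ≤ exp (L ^ A) ∧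
      β = bet (min c0 (1 / 4)) m ∧ p = pp (min c0 (1 / 4)) m ∧
      HeartNum c0 L H0 θ H1 Ac A2 δ k0 β p (exp (L ^ A) / 2 ^ (r + 4)) m K ∧
      ∀ R : ℝ, 1 ≤ R → R ≤ L ^ c → GainNum B (min c0 (1 / 4)) L H0 θ δ k0 p R r m K := by
  obtain ⟨c1, hc1e⟩ : ∃ c1, c1 = min c0 (1 / 4) := ⟨_, rfl⟩
  rw [← hc1e]
  have hc1 : 0 < c1 := by
    rw [hc1e]
    exact lt_min hc0 (by norm_num)
  have hc1' : c1 ≤ 1 / 4 := by
    rw [hc1e]
    exact min_le_right _ _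
  have hc10 : c1 ≤ c0 := by
    rw [hc1e]
    exact min_le_left _ _
  obtain ⟨C0, hC0e⟩ : ∃ C0, C0 = 20 / c1 + 10 := ⟨_, rfl⟩
  obtain ⟨hC0, hC0c⟩ := C0_facts hc1 hc1' hC0e
  obtain ⟨k, hk⟩ : ∃ k, k = c + 3 := ⟨_, rfl⟩
  refine ⟨4 * k + 13, fun B => ?_⟩
  obtain ⟨b, hb⟩ : ∃ b, b = 2 * (4 * k + 13 + B) + 3 * c + 10 := ⟨_, rfl⟩
  obtain ⟨T, hT⟩ := eventually_atTop.1 (ok C0 2 (by linarith) (by norm_num) k b)
  obtain ⟨T2, hT2⟩ := eventually_atTop.1 (ev_exp 1 b (c := 1 / 90) (by norm_num))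
  refine ⟨max (max T T2) (max 3000 (100000 / c1 ^ 3)), ?_, fun L hL => ?_⟩
  · exact (by norm_num : (1 : ℝ) ≤ 3000).trans ((le_max_left _ _).trans (le_max_right _ _))
  have hok := hT L ((le_max_left _ _).trans ((le_max_left _ _).trans hL))
  have hexp := hT2 L ((le_max_right _ _).trans ((le_max_left _ _).trans hL))
  have hL3 : 3000 ≤ L := (le_max_left _ _).trans ((le_max_right _ _).trans hL)
  have hLc : 100000 / c1 ^ 3 ≤ L := (le_max_right _ _).trans ((le_max_right _ _).trans hL)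
  have hL0 : 0 ≤ L := by linarith
  have hLb : L ^ b ≤ exp (L / 90) := by
    have h1 : 1 / 90 * L = L / 90 := by ring
    rw [h1, one_mul] at hexp
    exact hexp
  obtain ⟨e1, e2, e3⟩ := header_of hok hC0 hL3 hk
  have hH14 := hok.H1_4
  exact ⟨H0 k L, exp (-(5 * L)), H1 2 k L, Ac 2 k L, A2 2 L, del C0 2 k L, exp (-(4 * L)),
    bet c1 (m k L), pp c1 (m k L), rr L, m k L, K 2 L, e1, e2, exp_pos _,
    exp_le_one_iff.2 (by linarith), L_le_rr hL0, by linarith, hok.m1, e3, rfl, rfl,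
    heart_of hok hC0 hL3 hc1 hc1' hc10,
    fun R hR1 hR => gains_of hok hC0 hL3 hc1 hC0c hLc hLb hk hb hR1 hR⟩

end Vale.Agent.P112.H172.Num
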