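import Mathlib

/-!
P112, block [VNODE], part 1: the fourth power of a trigonometric sum on a segment.
Resonant quadruples are kept, nonresonant ones cost `2 / (|ω| ρ)`.
-/

namespace Vale.Agent.P112.H172

open Finset MeasureTheory
open scoped ENNReal

variable {ι : Type*} [Fintype ι]

/-- the trigonometric sum `∑ a_i e^{i ω s_i t}` -/
noncomputable def tsum4 (a : ι → ℂ) (s : ι → ℝ) (ω t : ℝ) : ℂ :=
  ∑ i, a i * Complex.exp (Complex.I * ((ω * s i * t : ℝ) : ℂ))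

theorem continuous_tsum4 (a : ι → ℂ) (s : ι → ℝ) (ω : ℝ) : Continuous fun t => tsum4 a s ω t := by
  unfold tsum4
  fun_prop

theorem conj_exp_I (x : ℝ) :
    (starRingEnd ℂ) (Complex.exp (Complex.I * (x : ℂ))) = Complex.exp (Complex.I * ((-x : ℝ) : ℂ)) := by
  rw [← Complex.exp_conj]
  congr 1
  simp

/-- the fourth power as a quadruple sum -/
theorem norm_tsum4_pow (a : ι → ℂ) (s : ι → ℝ) (ω t : ℝ) :
    ((‖tsum4 a s ω t‖ ^ 4 : ℝ) : ℂ) = ∑ i, ∑ j, ∑ k, ∑ l,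
      (a i * a j * (starRingEnd ℂ) (a k) * (starRingEnd ℂ) (a l)) *
        Complex.exp (Complex.I * ((ω * (s i + s j - s k - s l) : ℝ) : ℂ) * (t : ℂ)) := by
  have h1 : ((‖tsum4 a s ω t‖ ^ 4 : ℝ) : ℂ)
      = (tsum4 a s ω t * tsum4 a s ω t) *
        ((starRingEnd ℂ) (tsum4 a s ω t) * (starRingEnd ℂ) (tsum4 a s ω t)) := by
    have h2 : tsum4 a s ω t * (starRingEnd ℂ) (tsum4 a s ω t)
        = ((‖tsum4 a s ω t‖ ^ 2 : ℝ) : ℂ) := by
      rw [Complex.mul_conj, Complex.normSq_eq_norm_sq]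
    have h3 : (tsum4 a s ω t * tsum4 a s ω t) *
        ((starRingEnd ℂ) (tsum4 a s ω t) * (starRingEnd ℂ) (tsum4 a s ω t))
        = (tsum4 a s ω t * (starRingEnd ℂ) (tsum4 a s ω t)) *
          (tsum4 a s ω t * (starRingEnd ℂ) (tsum4 a s ω t)) := by ring
    rw [h3, h2]
    push_cast
    ring
  rw [h1]
  have h4 : (starRingEnd ℂ) (tsum4 a s ω t)
      = ∑ i, (starRingEnd ℂ) (a i) * Complex.exp (Complex.I * ((-(ω * s i * t) : ℝ) : ℂ)) := by
    unfold tsum4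
    rw [map_sum]
    refine Finset.sum_congr rfl fun i _ => ?_
    rw [map_mul, conj_exp_I]
  rw [h4]
  unfold tsum4
  rw [Finset.sum_mul_sum, Finset.sum_mul_sum, Finset.sum_mul]
  refine Finset.sum_congr rfl fun i _ => ?_
  rw [Finset.sum_mul]
  refine Finset.sum_congr rfl fun j _ => ?_
  rw [Finset.mul_sum]
  refine Finset.sum_congr rfl fun k _ => ?_
  rw [Finset.mul_sum]
  refine Finset.sum_congr rfl fun l _ => ?_
  have e : Complex.exp (Complex.I * ((ω * (s i + s j - s k - s l) : ℝ) : ℂ) * (t : ℂ))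
      = Complex.exp (Complex.I * ((ω * s i * t : ℝ) : ℂ)) *
        Complex.exp (Complex.I * ((ω * s j * t : ℝ) : ℂ)) *
        (Complex.exp (Complex.I * ((-(ω * s k * t) : ℝ) : ℂ)) *
        Complex.exp (Complex.I * ((-(ω * s l * t) : ℝ) : ℂ))) := by
    rw [← Complex.exp_add, ← Complex.exp_add, ← Complex.exp_add]
    congr 1
    push_cast
    ring
  rw [e]
  ring

theorem norm_int_exp_le {X : ℝ} (hX : 0 ≤ X) (w : ℝ) :
    ‖∫ t in (0 : ℝ)..X, Complex.exp (Complex.I * ((w : ℝ) : ℂ) * (t : ℂ))‖ ≤ X := by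
  have h := intervalIntegral.norm_integral_le_of_norm_le_const
    (a := (0 : ℝ)) (b := X) (C := 1)
    (f := fun t : ℝ => Complex.exp (Complex.I * ((w : ℝ) : ℂ) * (t : ℂ))) ?_
  · simpa [abs_of_nonneg hX] using h
  · intro t _
    have e : Complex.I * ((w : ℝ) : ℂ) * (t : ℂ) = ((w * t : ℝ) : ℂ) * Complex.I := by
      push_cast
      ring
    rw [e, Complex.norm_exp_ofReal_mul_I]

theorem norm_int_exp_le' {X : ℝ} {w : ℝ} (hw : w ≠ 0) :
    ‖∫ t in (0 : ℝ)..X, Complex.exp (Complex.I * ((w : ℝ) : ℂ) * (t : ℂ))‖ ≤ 2 / |w| := by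
  have hc : Complex.I * ((w : ℝ) : ℂ) ≠ 0 := by
    simp [hw]
  rw [integral_exp_mul_complex hc, norm_div]
  have h1 : ‖Complex.I * ((w : ℝ) : ℂ)‖ = |w| := by simp
  rw [h1]
  gcongr
  refine (norm_sub_le _ _).trans ?_
  have e : ∀ t : ℝ, ‖Complex.exp (Complex.I * ((w : ℝ) : ℂ) * (t : ℂ))‖ = 1 := by
    intro t
    have e : Complex.I * ((w : ℝ) : ℂ) * (t : ℂ) = ((w * t : ℝ) : ℂ) * Complex.I := by
      push_cast
      ring
    rw [e, Complex.norm_exp_ofReal_mul_I]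
  rw [e, e]
  norm_num

/-- **The scalar average.** -/
theorem avg4 (a : ι → ℂ) (s : ι → ℝ) {ω X ρ : ℝ} (hω : ω ≠ 0) (hX : 0 ≤ X) (hρ : 0 < ρ) :
    ∫ t in (0 : ℝ)..X, ‖tsum4 a s ω t‖ ^ 4 ≤
      X * (∑ i, ∑ j, ∑ k, ∑ l, (if |s i + s j - s k - s l| ≤ ρ then
        ‖a i‖ * ‖a j‖ * ‖a k‖ * ‖a l‖ else 0)) + 2 / (|ω| * ρ) * (∑ i, ‖a i‖) ^ 4 := by
  have hω' : 0 < |ω| := abs_pos.2 hω
  have h0 : 0 ≤ ∫ t in (0 : ℝ)..X, ‖tsum4 a s ω t‖ ^ 4 :=
    intervalIntegral.integral_nonneg hX fun t _ => by positivity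
  have h1 : ((∫ t in (0 : ℝ)..X, ‖tsum4 a s ω t‖ ^ 4 : ℝ) : ℂ)
      = ∑ i, ∑ j, ∑ k, ∑ l, (a i * a j * (starRingEnd ℂ) (a k) * (starRingEnd ℂ) (a l)) *
        ∫ t in (0 : ℝ)..X,
          Complex.exp (Complex.I * ((ω * (s i + s j - s k - s l) : ℝ) : ℂ) * (t : ℂ)) := by
    rw [← intervalIntegral.integral_ofReal]
    have e : ∀ t : ℝ, ((‖tsum4 a s ω t‖ ^ 4 : ℝ) : ℂ) = _ := fun t => norm_tsum4_pow a s ω t
    simp_rw [e]
    rw [intervalIntegral.integral_finsetSum]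
    swap
    · intro i _
      exact Continuous.intervalIntegrable (by fun_prop) _ _
    refine Finset.sum_congr rfl fun i _ => ?_
    rw [intervalIntegral.integral_finsetSum]
    swap
    · intro i _
      exact Continuous.intervalIntegrable (by fun_prop) _ _
    refine Finset.sum_congr rfl fun j _ => ?_
    rw [intervalIntegral.integral_finsetSum]
    swap
    · intro i _
      exact Continuous.intervalIntegrable (by fun_prop) _ _
    refine Finset.sum_congr rfl fun k _ => ?_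
    rw [intervalIntegral.integral_finsetSum]
    swap
    · intro i _
      exact Continuous.intervalIntegrable (by fun_prop) _ _
    refine Finset.sum_congr rfl fun l _ => ?_
    rw [intervalIntegral.integral_const_mul]
  have h2 : (∫ t in (0 : ℝ)..X, ‖tsum4 a s ω t‖ ^ 4)
      = ‖((∫ t in (0 : ℝ)..X, ‖tsum4 a s ω t‖ ^ 4 : ℝ) : ℂ)‖ := by
    rw [Complex.norm_real, Real.norm_of_nonneg h0]
  rw [h2, h1]
  have hq : ∀ i j k l : ι, ‖(a i * a j * (starRingEnd ℂ) (a k) * (starRingEnd ℂ) (a l)) *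
        ∫ t in (0 : ℝ)..X,
          Complex.exp (Complex.I * ((ω * (s i + s j - s k - s l) : ℝ) : ℂ) * (t : ℂ))‖
      ≤ X * (if |s i + s j - s k - s l| ≤ ρ then ‖a i‖ * ‖a j‖ * ‖a k‖ * ‖a l‖ else 0)
        + 2 / (|ω| * ρ) * (‖a i‖ * ‖a j‖ * ‖a k‖ * ‖a l‖) := by
    intro i j k l
    rw [norm_mul]
    have e1 : ‖a i * a j * (starRingEnd ℂ) (a k) * (starRingEnd ℂ) (a l)‖
        = ‖a i‖ * ‖a j‖ * ‖a k‖ * ‖a l‖ := by
      simp [norm_mul]
    rw [e1]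
    have hp : 0 ≤ ‖a i‖ * ‖a j‖ * ‖a k‖ * ‖a l‖ := by positivity
    split_ifs with hr
    · have := norm_int_exp_le hX (ω * (s i + s j - s k - s l))
      have h3 : 0 ≤ 2 / (|ω| * ρ) * (‖a i‖ * ‖a j‖ * ‖a k‖ * ‖a l‖) := by positivity
      have h4 := mul_le_mul_of_nonneg_left this hp
      linarith [mul_comm X (‖a i‖ * ‖a j‖ * ‖a k‖ * ‖a l‖)]
    · rw [not_le] at hr
      have hne : ω * (s i + s j - s k - s l) ≠ 0 := by
        refine mul_ne_zero hω ?_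
        intro h
        rw [h, abs_zero] at hr
        linarith
      have := norm_int_exp_le' (X := X) hne
      have h5 : 2 / |ω * (s i + s j - s k - s l)| ≤ 2 / (|ω| * ρ) := by
        rw [abs_mul]
        gcongr
      have h6 := mul_le_mul_of_nonneg_left (this.trans h5) hp
      linarith [mul_comm (2 / (|ω| * ρ)) (‖a i‖ * ‖a j‖ * ‖a k‖ * ‖a l‖)]
  have hsum : ‖∑ i, ∑ j, ∑ k, ∑ l, (a i * a j * (starRingEnd ℂ) (a k) * (starRingEnd ℂ) (a l)) *
        ∫ t in (0 : ℝ)..X,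
          Complex.exp (Complex.I * ((ω * (s i + s j - s k - s l) : ℝ) : ℂ) * (t : ℂ))‖
      ≤ ∑ i, ∑ j, ∑ k, ∑ l, (X * (if |s i + s j - s k - s l| ≤ ρ then
          ‖a i‖ * ‖a j‖ * ‖a k‖ * ‖a l‖ else 0)
        + 2 / (|ω| * ρ) * (‖a i‖ * ‖a j‖ * ‖a k‖ * ‖a l‖)) := by
    refine (norm_sum_le _ _).trans (Finset.sum_le_sum fun i _ => ?_)
    refine (norm_sum_le _ _).trans (Finset.sum_le_sum fun j _ => ?_)
    refine (norm_sum_le _ _).trans (Finset.sum_le_sum fun k _ => ?_)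
    refine (norm_sum_le _ _).trans (Finset.sum_le_sum fun l _ => hq i j k l)
  refine hsum.trans (le_of_eq ?_)
  simp only [Finset.sum_add_distrib, ← Finset.mul_sum]
  congr 1
  have e : (∑ i, ‖a i‖) ^ 4 = ∑ i, ∑ j, ∑ k, ∑ l, ‖a i‖ * ‖a j‖ * ‖a k‖ * ‖a l‖ := by
    simp only [← Finset.mul_sum, ← Finset.sum_mul]
    ring
  rw [e]
  simp only [← Finset.mul_sum, ← Finset.sum_mul]

end Vale.Agent.P112.H172
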