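import Mathlib

/-!
P112, block [VNODE], part 2: Minkowski inequalities for lower Lebesgue integrals.
-/

namespace Vale.Agent.P112.H172

open Finset MeasureTheory
open scoped ENNReal

/-- Minkowski's integral inequality in `L²`, for nonnegative functions. -/
theorem mink2 {α β : Type*} [MeasurableSpace α] [MeasurableSpace β] (μ : Measure α)
    (ν : Measure β) [SFinite μ] [SFinite ν] (h : α → β → ℝ≥0∞)
    (hm : Measurable (Function.uncurry h)) :
    ∫⁻ t, (∫⁻ θ, h t θ ∂ν) ^ 2 ∂μ ≤ (∫⁻ θ, (∫⁻ t, h t θ ^ 2 ∂μ) ^ (1 / 2 : ℝ) ∂ν) ^ 2 := by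
  have hm1 : ∀ t, Measurable (h t) := fun t => hm.of_uncurry_left
  have hm2 : ∀ θ, Measurable fun t => h t θ := fun θ => hm.of_uncurry_right
  have hcs : ∀ θ θ', ∫⁻ t, h t θ * h t θ' ∂μ ≤
      (∫⁻ t, h t θ ^ 2 ∂μ) ^ (1 / 2 : ℝ) * (∫⁻ t, h t θ' ^ 2 ∂μ) ^ (1 / 2 : ℝ) := by
    intro θ θ'
    have := ENNReal.lintegral_mul_le_Lp_mul_Lq μ Real.HolderConjugate.two_two
      (hm2 θ).aemeasurable (hm2 θ').aemeasurable
    simpa [ENNReal.rpow_two] using this
  set N : β → ℝ≥0∞ := fun θ => (∫⁻ t, h t θ ^ 2 ∂μ) ^ (1 / 2 : ℝ) with hN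
  have hNm : Measurable N := by
    have : Measurable fun θ => ∫⁻ t, h t θ ^ 2 ∂μ := by
      apply Measurable.lintegral_prod_left
      exact (hm.pow_const 2)
    exact this.pow_const _
  have e1 : ∀ t, (∫⁻ θ, h t θ ∂ν) ^ 2 = ∫⁻ θ, ∫⁻ θ', h t θ * h t θ' ∂ν ∂ν := by
    intro t
    rw [sq, ← lintegral_mul_const _ (hm1 t)]
    refine lintegral_congr fun θ => ?_
    rw [lintegral_const_mul _ (hm1 t)]
  simp_rw [e1]
  have m3 : Measurable fun q : (α × β) × β => h q.1.1 q.1.2 * h q.1.1 q.2 := by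
    have a1 : Measurable fun q : (α × β) × β => h q.1.1 q.1.2 := hm.comp measurable_fst
    have a2 : Measurable fun q : (α × β) × β => h q.1.1 q.2 :=
      hm.comp ((measurable_fst.comp measurable_fst).prodMk measurable_snd)
    exact a1.mul a2
  rw [lintegral_lintegral_swap]
  swap
  · exact (Measurable.lintegral_prod_right m3).aemeasurable
  calc ∫⁻ θ, ∫⁻ t, ∫⁻ θ', h t θ * h t θ' ∂ν ∂μ ∂ν
      = ∫⁻ θ, ∫⁻ θ', ∫⁻ t, h t θ * h t θ' ∂μ ∂ν ∂ν := by
        refine lintegral_congr fun θ => ?_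
        rw [lintegral_lintegral_swap]
        have a1 : Measurable fun q : α × β => h q.1 θ := (hm2 θ).comp measurable_fst
        have a2 : Measurable fun q : α × β => h q.1 q.2 := hm
        exact (a1.mul a2).aemeasurable
    _ ≤ ∫⁻ θ, ∫⁻ θ', N θ * N θ' ∂ν ∂ν :=
        lintegral_mono fun θ => lintegral_mono fun θ' => hcs θ θ'
    _ = (∫⁻ θ, N θ ∂ν) ^ 2 := by
        rw [sq, ← lintegral_mul_const _ hNm]
        refine lintegral_congr fun θ => ?_
        rw [lintegral_const_mul _ hNm]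

/-- Minkowski for a finite sum in `L^r`. -/
theorem minkr {β : Type*} [MeasurableSpace β] (ν : Measure β) {ι : Type*} (S : Finset ι)
    (f : ι → β → ℝ≥0∞) (hf : ∀ i, Measurable (f i)) {r : ℝ} (hr : 1 ≤ r) :
    (∫⁻ x, (∑ i ∈ S, f i x) ^ r ∂ν) ^ (1 / r) ≤ ∑ i ∈ S, (∫⁻ x, f i x ^ r ∂ν) ^ (1 / r) := by
  classical
  induction S using Finset.induction_on with
  | empty =>
    have h0 : (0 : ℝ≥0∞) ^ r = 0 := ENNReal.zero_rpow_of_pos (by linarith)
    have h1 : (0 : ℝ≥0∞) ^ (1 / r) = 0 := ENNReal.zero_rpow_of_pos (by positivity)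
    simp only [Finset.sum_empty, h0, lintegral_zero, h1, le_refl]
  | insert i S hi ih =>
    simp only [Finset.sum_insert hi]
    have h := ENNReal.lintegral_Lp_add_le (μ := ν) (hf i).aemeasurable
      (Finset.measurable_sum S fun j _ => hf j).aemeasurable hr
    simp only [Pi.add_apply] at h
    exact h.trans (add_le_add le_rfl ih)

/-- a power version of `minkr`, with `r = 2 / p` -/
theorem mink_p {β : Type*} [MeasurableSpace β] (ν : Measure β) {ι : Type*} (S : Finset ι)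
    (f : ι → β → ℝ≥0∞) (hf : ∀ i, Measurable (f i)) {p : ℝ} (hp : 0 < p) (hp2 : p ≤ 2) :
    ∫⁻ x, (∑ i ∈ S, f i x ^ p) ^ (2 / p) ∂ν ≤ (∑ i ∈ S, (∫⁻ x, f i x ^ 2 ∂ν) ^ (p / 2)) ^ (2 / p) := by
  have hr : 1 ≤ 2 / p := by rw [le_div_iff₀ hp]; linarith
  have h := minkr ν S (fun i x => f i x ^ p) (fun i => (hf i).pow_const p) hr
  have e1 : (1 : ℝ) / (2 / p) = p / 2 := by field_simp
  have e2 : ∀ i x, (f i x ^ p) ^ (2 / p) = f i x ^ 2 := by
    intro i x
    rw [← ENNReal.rpow_mul, mul_div_cancel₀ _ hp.ne']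
    exact ENNReal.rpow_two _
  simp only [e1, e2] at h
  calc ∫⁻ x, (∑ i ∈ S, f i x ^ p) ^ (2 / p) ∂ν
      = ((∫⁻ x, (∑ i ∈ S, f i x ^ p) ^ (2 / p) ∂ν) ^ (p / 2)) ^ (2 / p) := by
        rw [← ENNReal.rpow_mul]
        have : p / 2 * (2 / p) = 1 := by field_simp
        rw [this, ENNReal.rpow_one]
    _ ≤ _ := ENNReal.rpow_le_rpow h (by positivity)

end Vale.Agent.P112.H172
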