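import Vale.Agent.P112.H172.NodeP

/-!
P112: the node inequality with general gauges, a set of times, and amplitudes which depend on the
piece.
-/

namespace Vale.Agent.P112.H172

open Finset MeasureTheory
open scoped ENNReal FourierTransform

/-- [VNODE] + perturbation on a set of times -/
theorem node_pieces_on : ∃ c : ℝ, 0 < c ∧ c ≤ 1 / 8 ∧ ∀ (κ : Type) [Fintype κ] (Gd : Set ℝ)
    (P : ℝ → ℝ → ℂ) (g : κ → ℝ → ℂ) (s M : κ → ℝ) (ρ X θ0 β e : ℝ) (η : ℝ≥0∞),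
    Gd ⊆ Set.Icc 0 X → (∀ t ∈ Gd, Measurable (P t)) →
    (∀ t ∈ Gd, ∫⁻ v, ‖P t v - mov g s t v‖ₑ ^ 2 ≤ η) →
    (∀ i, Prof (g i)) → 0 < ρ → 0 < X → 0 < θ0 →
    (∀ i j, i ≠ j → 3 * ρ ≤ |s i - s j|) → (∀ i, 0 < M i) →
    1 - c / Real.log (Fintype.card κ + 2) ≤ β → β ≤ 1 → 0 < e →
    ∫⁻ t in Gd, (∫⁻ v, ‖P t v‖ₑ ^ 2) ^ 2 ≤
      ENNReal.ofReal X * (ENNReal.ofReal ((1 + e) ^ 4) *
        (ENNReal.ofReal ((∑ i, M i ^ (1 / β)) ^ (2 * β)) *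
          ∑ i, (∫⁻ v, ‖g i v‖ₑ ^ 2) ^ 2 * ENNReal.ofReal ((M i ^ 2)⁻¹)) +
        ENNReal.ofReal ((1 + e) ^ 3 * (1 + 1 / e)) * verr g ρ X θ0 ^ 2 +
        ENNReal.ofReal ((1 + 1 / e) ^ 3) * η ^ 2) := by
  obtain ⟨c, hc, hc8, hV⟩ := vnode_gauge
  refine ⟨c, hc, hc8, ?_⟩
  intro κ _ Gd P g s M ρ X θ0 β e η hGd hP hη hg hρ hX hθ hsep hM hβ hβ1 he
  have h1 := hV κ g s M ρ X θ0 β e hg hρ hX hθ hsep hM hβ hβ1 he
  have hm : ∀ t, Prof (mov g s t) := fun t =>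
    Prof.sum (Finset.univ : Finset κ) fun i => (hg i).shift (t * s i)
  have h2 : ∀ t ∈ Gd, (∫⁻ v, ‖P t v‖ₑ ^ 2) ^ 2 ≤
      ENNReal.ofReal ((1 + e) ^ 3) * (∫⁻ v, ‖mov g s t v‖ₑ ^ 2) ^ 2 +
        ENNReal.ofReal ((1 + 1 / e) ^ 3) * η ^ 2 := by
    intro t ht
    have h3 := pert (F := mov g s t) (E := fun v => P t v - mov g s t v) (hm t).meas
      ((hP t ht).sub (hm t).meas) he
    have e1 : ∀ v, mov g s t v + (P t v - mov g s t v) = P t v := fun v => by ring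
    simp only [e1] at h3
    refine h3.trans ?_
    gcongr
    exact hη t ht
  have hmeas : Measurable fun t : ℝ => (∫⁻ v, ‖mov g s t v‖ₑ ^ 2) ^ 2 := by
    have h4 : Measurable fun q : ℝ × ℝ => ‖mov g s q.1 q.2‖ₑ ^ 2 := by
      have : Measurable fun q : ℝ × ℝ => mov g s q.1 q.2 := by
        unfold mov
        refine Finset.measurable_sum _ fun i _ => ?_
        exact (hg i).meas.comp (by fun_prop)
      exact this.enorm.pow_const 2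
    exact (Measurable.lintegral_prod_right h4).pow_const 2
  calc ∫⁻ t in Gd, (∫⁻ v, ‖P t v‖ₑ ^ 2) ^ 2
      ≤ ∫⁻ t in Gd, (ENNReal.ofReal ((1 + e) ^ 3) * (∫⁻ v, ‖mov g s t v‖ₑ ^ 2) ^ 2 +
        ENNReal.ofReal ((1 + 1 / e) ^ 3) * η ^ 2) :=
        setLIntegral_mono ((hmeas.const_mul _).add_const _) h2
    _ ≤ ∫⁻ t in Set.Icc 0 X, (ENNReal.ofReal ((1 + e) ^ 3) * (∫⁻ v, ‖mov g s t v‖ₑ ^ 2) ^ 2 +
        ENNReal.ofReal ((1 + 1 / e) ^ 3) * η ^ 2) := lintegral_mono_set hGd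
    _ = ENNReal.ofReal ((1 + e) ^ 3) *
          (∫⁻ t in Set.Ioc 0 X, (∫⁻ v, ‖mov g s t v‖ₑ ^ 2) ^ 2) +
        ENNReal.ofReal X * (ENNReal.ofReal ((1 + 1 / e) ^ 3) * η ^ 2) := by
        rw [lintegral_add_right _ measurable_const, lintegral_const_mul _ hmeas, setLIntegral_const,
          Real.volume_Icc, sub_zero, mul_comm (ENNReal.ofReal ((1 + 1 / e) ^ 3) * η ^ 2)]
        congr 2
        exact setLIntegral_congr Ioc_ae_eq_Icc.symm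
    _ ≤ ENNReal.ofReal ((1 + e) ^ 3) * (ENNReal.ofReal X * (ENNReal.ofReal (1 + e) *
        (ENNReal.ofReal ((∑ i, M i ^ (1 / β)) ^ (2 * β)) *
          ∑ i, (∫⁻ v, ‖g i v‖ₑ ^ 2) ^ 2 * ENNReal.ofReal ((M i ^ 2)⁻¹)) +
        ENNReal.ofReal (1 + 1 / e) * verr g ρ X θ0 ^ 2)) +
        ENNReal.ofReal X * (ENNReal.ofReal ((1 + 1 / e) ^ 3) * η ^ 2) := by gcongr
    _ = _ := by
        have e4 : ENNReal.ofReal ((1 + e) ^ 4) = ENNReal.ofReal ((1 + e) ^ 3) * ENNReal.ofReal (1 + e) := by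
          rw [← ENNReal.ofReal_mul (by positivity)]
          congr 1
        have e5 : ENNReal.ofReal ((1 + e) ^ 3 * (1 + 1 / e)) =
            ENNReal.ofReal ((1 + e) ^ 3) * ENNReal.ofReal (1 + 1 / e) :=
          ENNReal.ofReal_mul (by positivity)
        rw [e4, e5]
        ring

/-- [SPLIT], finite sums -/
theorem lint_sum_pow_four {ι : Type} (J : Finset ι) (h : ι → ℝ → ℂ)
    (hm : ∀ j ∈ J, Measurable (h j)) :
    (∫⁻ v, ‖∑ j ∈ J, h j v‖ₑ ^ 2) ^ 2 ≤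
      (J.card : ℝ≥0∞) ^ 3 * ∑ j ∈ J, (∫⁻ v, ‖h j v‖ₑ ^ 2) ^ 2 := by
  have h1 := lint_sum_sq_le J h hm (fun j => ∫⁻ v, ‖h j v‖ₑ ^ 2) (fun j _ => le_rfl)
  have h2 : (∑ j ∈ J, ∫⁻ v, ‖h j v‖ₑ ^ 2) ^ 2 ≤
      (J.card : ℝ≥0∞) * ∑ j ∈ J, (∫⁻ v, ‖h j v‖ₑ ^ 2) ^ 2 := by
    have := ENNReal.rpow_sum_le_const_mul_sum_rpow J (fun j => ∫⁻ v, ‖h j v‖ₑ ^ 2)
      (p := 2) (by norm_num)
    have h3 : (2 : ℝ) - 1 = 1 := by norm_num
    rw [h3, ENNReal.rpow_one] at this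
    simpa only [← ENNReal.rpow_two] using this
  calc (∫⁻ v, ‖∑ j ∈ J, h j v‖ₑ ^ 2) ^ 2
      ≤ ((J.card : ℝ≥0∞) * ∑ j ∈ J, ∫⁻ v, ‖h j v‖ₑ ^ 2) ^ 2 := by gcongr
    _ = (J.card : ℝ≥0∞) ^ 2 * (∑ j ∈ J, ∫⁻ v, ‖h j v‖ₑ ^ 2) ^ 2 := by ring
    _ ≤ (J.card : ℝ≥0∞) ^ 2 * ((J.card : ℝ≥0∞) * ∑ j ∈ J, (∫⁻ v, ‖h j v‖ₑ ^ 2) ^ 2) := by gcongr
    _ = _ := by ring

/-- **The node inequality, general form.** -/
theorem node_gen : ∃ c : ℝ, 0 < c ∧ c ≤ 1 / 8 ∧ ∀ (κ ι : Type) [Fintype κ] (s : ι → ℝ)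
    (T : κ → Finset ι) (Gd : Set ℝ) (K m : ℕ) (q : ℝ → κ → ι → ℝ → ℂ) (p : κ → ι → ℝ → ℂ)
    (B : κ → ι → ℝ≥0∞) (M : κ → ℝ) (σ X τ ρ θ0 β e : ℝ) (e1 e2 e3 : ℝ≥0∞),
    Gd ⊆ Set.Icc 0 X → (∀ i, (T i).Nonempty) →
    (∀ i, ∀ a ∈ T i, ∀ b ∈ T i, |s a - s b| ≤ τ) →
    (∀ i j, i ≠ j → ∀ a ∈ T i, ∀ b ∈ T j, 3 * ρ ≤ |s a - s b|) →
    ∑ i, (T i).card ≤ K → Fintype.card κ ≤ m + 1 → (∀ i, 1 ≤ M i) → Nonempty κ →
    0 < X → 0 < ρ → 0 < θ0 → 1 - c / Real.log (m + 3) ≤ β → β ≤ 1 → 0 < e → e ≤ 1 →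
    (∀ t ∈ Gd, ∀ i, ∀ a ∈ T i, Measurable (q t i a)) → (∀ i, ∀ a ∈ T i, Prof (p i a)) →
    (∀ t ∈ Gd, ∀ i, ∀ a ∈ T i,
      ∫⁻ v, ‖q t i a v - p i a (v - t * (s a - σ))‖ₑ ^ 2 ≤ e1 * B i a) →
    (∀ i, ∀ a ∈ T i, ∀ d : ℝ, |d| ≤ X * τ →
      ∫⁻ v, ‖p i a (v - d) - p i a v‖ₑ ^ 2 ≤ e2 * B i a) →
    (∀ i, ∀ a ∈ T i, ∫⁻ θ in Set.Ioo (-θ0) θ0, ‖𝓕 (p i a) θ‖ₑ ^ 2 ≤ e3 * B i a) →
    (∀ i, ∀ a ∈ T i, ∫⁻ v, ‖p i a v‖ₑ ^ 2 ≤ B i a) →
    ∫⁻ t in Gd, (∫⁻ v, ‖∑ i, ∑ a ∈ T i, q t i a v‖ₑ ^ 2) ^ 2 *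
        ENNReal.ofReal (((∑ i, M i ^ (1 / β)) ^ (2 * β))⁻¹) ≤
      ENNReal.ofReal X * (∑ i, (∫⁻ v, ‖∑ a ∈ T i, p i a v‖ₑ ^ 2) ^ 2 *
          ENNReal.ofReal ((M i ^ 2)⁻¹) +
        (ENNReal.ofReal (15 * e) * K ^ 2 +
          ENNReal.ofReal (16 / e) * K ^ 4 *
            (e3 + ENNReal.ofReal (1 / (Real.pi * θ0 * ρ * X)) ^ (1 / 2 : ℝ)) ^ 2 +
          ENNReal.ofReal (32 / e ^ 3) * K ^ 2 * (e1 + e2) ^ 2) *
            (∑ i, ∑ a ∈ T i, B i a) ^ 2) := by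
  obtain ⟨c, hc, hc8, hV⟩ := node_pieces_on
  refine ⟨c, hc, hc8, ?_⟩
  intro κ ι _ s T Gd K m q p B M σ X τ ρ θ0 β e e1 e2 e3 hGd hne hin hout hK hm hM1 hκ hX hρ hθ
    hβ hβ1 he he1 hqm hpp H1 H2 H3 H4
  -- constants
  have hlogm : 1 / 2 ≤ Real.log ((m : ℝ) + 3) := by
    have h1 := log_card_pos (m + 1)
    push_cast at h1
    have h2 : (m : ℝ) + 1 + 2 = m + 3 := by ring
    rwa [h2] at h1
  have hβ2 : 1 / 2 ≤ β := by
    have h1 : c / Real.log (m + 3) ≤ 1 / 4 := by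
      rw [div_le_iff₀ (by linarith)]
      nlinarith
    linarith
  have hpc : Fintype.card κ ≤ K := by
    refine le_trans ?_ hK
    have h1 : ∑ _i : κ, 1 ≤ ∑ i, (T i).card := Finset.sum_le_sum fun i _ => (hne i).card_pos
    simpa using h1
  have hTK : ∀ i, (T i).card ≤ K := fun i =>
    (Finset.single_le_sum (f := fun i => (T i).card) (fun _ _ => Nat.zero_le _)
      (Finset.mem_univ i)).trans hK
  choose r hr using hne
  set g : κ → ℝ → ℂ := fun i v => ∑ a ∈ T i, p i a v with hg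
  set sl : κ → ℝ := fun i => s (r i) - σ with hsl
  set SB : ℝ≥0∞ := ∑ i, ∑ a ∈ T i, B i a with hSB
  have hL : ∀ i, ∫⁻ v, ‖∑ a ∈ T i, p i a v‖ₑ ^ 2 ≤ (K : ℝ≥0∞) * ∑ a ∈ T i, B i a := by
    intro i
    refine (lint_sum_sq_le (T i) (fun a v => p i a v) (fun a ha => (hpp i a ha).meas) (B i)
      (fun a ha => H4 i a ha)).trans ?_
    gcongr
    exact hTK i
  have hFq : ∀ i, ∫⁻ θ in Set.Ioo (-θ0) θ0, ‖𝓕 (fun v => ∑ a ∈ T i, p i a v) θ‖ₑ ^ 2 ≤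
      (K : ℝ≥0∞) * (e3 * ∑ a ∈ T i, B i a) := by
    intro i
    have h1 : ∀ θ, 𝓕 (fun v => ∑ a ∈ T i, p i a v) θ = ∑ a ∈ T i, 𝓕 (p i a) θ := by
      intro θ
      simp only [Real.fourier_real_eq_integral_exp_smul]
      simp only [smul_eq_mul, Finset.mul_sum]
      rw [integral_finsetSum]
      intro a ha
      refine (hpp i a ha).i1.bdd_mul (c := 1) (by fun_prop) ?_
      refine Filter.Eventually.of_forall fun v => ?_
      rw [Complex.norm_exp]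
      simp
    simp only [h1]
    calc ∫⁻ θ in Set.Ioo (-θ0) θ0, ‖∑ a ∈ T i, 𝓕 (p i a) θ‖ₑ ^ 2
        ≤ ∫⁻ θ in Set.Ioo (-θ0) θ0, ((T i).card : ℝ≥0∞) * ∑ a ∈ T i, ‖𝓕 (p i a) θ‖ₑ ^ 2 :=
          lintegral_mono fun θ => enorm_sum_sq_le (T i) _
      _ = ((T i).card : ℝ≥0∞) * ∑ a ∈ T i, ∫⁻ θ in Set.Ioo (-θ0) θ0, ‖𝓕 (p i a) θ‖ₑ ^ 2 := by
          rw [lintegral_const_mul' _ _ (by finiteness), lintegral_finsetSum']
          intro a ha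
          exact ((continuous_fourier_prof (hpp i a ha).i1).measurable.enorm.pow_const
            2).aemeasurable
      _ ≤ (K : ℝ≥0∞) * ∑ a ∈ T i, e3 * B i a := by
          gcongr with a ha
          · exact hTK i
          · exact H3 i a ha
      _ = _ := by rw [← Finset.mul_sum]
  have hverr : verr g ρ X θ0 ≤ (K : ℝ≥0∞) ^ 2 *
      (e3 + ENNReal.ofReal (1 / (Real.pi * θ0 * ρ * X)) ^ (1 / 2 : ℝ)) * SB := by
    unfold verr
    have h1 : ∑ i, ∫⁻ v, ‖g i v‖ₑ ^ 2 ≤ (K : ℝ≥0∞) * SB := by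
      refine (Finset.sum_le_sum fun i _ => hL i).trans (le_of_eq ?_)
      rw [← Finset.mul_sum]
    have h2 : ∑ i, ∫⁻ θ in Set.Ioo (-θ0) θ0, ‖𝓕 (g i) θ‖ₑ ^ 2 ≤ (K : ℝ≥0∞) * (e3 * SB) := by
      refine (Finset.sum_le_sum fun i _ => hFq i).trans (le_of_eq ?_)
      rw [← Finset.mul_sum, ← Finset.mul_sum]
    calc _ ≤ (K : ℝ≥0∞) * (ENNReal.ofReal (1 / (Real.pi * θ0 * ρ * X)) ^ (1 / 2 : ℝ) *
          ((K : ℝ≥0∞) * SB) + (K : ℝ≥0∞) * (e3 * SB)) := by gcongr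
      _ = _ := by ring
  set η : ℝ≥0∞ := 2 * (K : ℝ≥0∞) * (e1 + e2) * SB with hη
  have hpert : ∀ t ∈ Gd, ∫⁻ v, ‖(∑ i, ∑ a ∈ T i, q t i a v) - mov g sl t v‖ₑ ^ 2 ≤ η := by
    intro t ht
    have ht0 := hGd ht
    set C : Finset (Σ _ : κ, ι) := Finset.univ.sigma T with hC
    have hmC : ∀ x ∈ C, x.2 ∈ T x.1 := fun x hx => (Finset.mem_sigma.1 hx).2
    have h1 : ∀ v, (∑ i, ∑ a ∈ T i, q t i a v) - mov g sl t v =
        ∑ x ∈ C, (q t x.1 x.2 v - p x.1 x.2 (v - t * sl x.1)) := by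
      intro v
      unfold mov
      rw [← Finset.sum_sub_distrib, hC, Finset.sum_sigma]
      refine Finset.sum_congr rfl fun i _ => ?_
      simp only [hg]
      rw [← Finset.sum_sub_distrib]
    simp only [h1]
    have h2 : ∀ x ∈ C, ∫⁻ v, ‖q t x.1 x.2 v - p x.1 x.2 (v - t * sl x.1)‖ₑ ^ 2 ≤
        2 * (e1 + e2) * B x.1 x.2 := by
      rintro ⟨i, a⟩ hx
      have ha : a ∈ T i := hmC _ hx
      dsimp only
      set d : ℝ := t * (s (r i) - s a) with hd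
      have hdX : |d| ≤ X * τ := by
        rw [hd, abs_mul, abs_of_nonneg ht0.1]
        have h3 := hin i _ (hr i) a ha
        have h4 := abs_nonneg (s (r i) - s a)
        exact mul_le_mul ht0.2 h3 h4 hX.le
      have h5 : ∫⁻ v, ‖p i a (v - t * (s a - σ)) - p i a (v - t * sl i)‖ₑ ^ 2 ≤ e2 * B i a := by
        have h6 := H2 i a ha d hdX
        have h7 := lintegral_sub_right_eq_self (μ := (volume : Measure ℝ))
          (fun v => ‖p i a (v - d) - p i a v‖ₑ ^ 2) (t * (s a - σ))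
        rw [← h7] at h6
        refine le_trans (le_of_eq ?_) h6
        refine lintegral_congr fun v => ?_
        rw [← enorm_neg, neg_sub]
        congr 3
        rw [hsl, hd]
        congr 1
        ring
      have hpm : Measurable (p i a) := (hpp i a ha).meas
      have hm1 : Measurable fun v => q t i a v - p i a (v - t * (s a - σ)) :=
        (hqm t ht i a ha).sub (hpm.comp (measurable_id.sub_const _))
      calc ∫⁻ v, ‖q t i a v - p i a (v - t * sl i)‖ₑ ^ 2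
          ≤ ∫⁻ v, (2 * ‖q t i a v - p i a (v - t * (s a - σ))‖ₑ ^ 2 +
            2 * ‖p i a (v - t * (s a - σ)) - p i a (v - t * sl i)‖ₑ ^ 2) := by
            refine lintegral_mono fun v => ?_
            have h8 : q t i a v - p i a (v - t * sl i) =
                (q t i a v - p i a (v - t * (s a - σ))) +
                (p i a (v - t * (s a - σ)) - p i a (v - t * sl i)) := by ring
            rw [h8]
            have h9 := sq_add_le ‖q t i a v - p i a (v - t * (s a - σ))‖ₑ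
              ‖p i a (v - t * (s a - σ)) - p i a (v - t * sl i)‖ₑ (e := 1) one_pos
            have h10 : ENNReal.ofReal (1 + 1) = 2 := by norm_num
            have h11 : ENNReal.ofReal (1 + 1 / 1) = 2 := by norm_num
            rw [h10, h11] at h9
            refine le_trans ?_ h9
            gcongr
            exact enorm_add_le _ _
        _ = 2 * (∫⁻ v, ‖q t i a v - p i a (v - t * (s a - σ))‖ₑ ^ 2) +
            2 * ∫⁻ v, ‖p i a (v - t * (s a - σ)) - p i a (v - t * sl i)‖ₑ ^ 2 := by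
            rw [lintegral_add_left ((hm1.enorm.pow_const 2).const_mul 2),
              lintegral_const_mul' _ _ (by finiteness), lintegral_const_mul' _ _ (by finiteness)]
        _ ≤ 2 * (e1 * B i a) + 2 * (e2 * B i a) := by
            gcongr
            exact H1 t ht i a ha
        _ = _ := by ring
    refine (lint_sum_sq_le C (fun x v => q t x.1 x.2 v - p x.1 x.2 (v - t * sl x.1))
      (fun x hx => (hqm t ht _ _ (hmC x hx)).sub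
        ((hpp _ _ (hmC x hx)).meas.comp (measurable_id.sub_const _)))
      (fun x => 2 * (e1 + e2) * B x.1 x.2) h2).trans ?_
    have hCc : C.card ≤ K := by
      rw [hC, Finset.card_sigma]
      exact hK
    rw [hη, ← Finset.mul_sum, hSB, hC, Finset.sum_sigma]
    calc (((Finset.univ : Finset κ).sigma T).card : ℝ≥0∞) *
          (2 * (e1 + e2) * ∑ i, ∑ a ∈ T i, B i a)
        ≤ (K : ℝ≥0∞) * (2 * (e1 + e2) * ∑ i, ∑ a ∈ T i, B i a) := by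
          gcongr
      _ = _ := by ring
  have hP : ∀ t ∈ Gd, Measurable fun v => ∑ i, ∑ a ∈ T i, q t i a v := fun t ht =>
    Finset.measurable_sum _ fun i _ => Finset.measurable_sum _ fun a ha => hqm t ht i a ha
  have hgp : ∀ i, Prof (g i) := fun i => Prof.sum' (T i) fun a ha => hpp i a ha
  have hsep : ∀ i j : κ, i ≠ j → 3 * ρ ≤ |sl i - sl j| := by
    intro i j hij
    have h1 := hout i j hij _ (hr i) _ (hr j)
    simp only [hsl]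
    have h2 : s (r i) - σ - (s (r j) - σ) = s (r i) - s (r j) := by ring
    rwa [h2]
  have hM : ∀ i, 0 < M i := fun i => zero_lt_one.trans_le (hM1 i)
  have hβ' : 1 - c / Real.log (Fintype.card κ + 2) ≤ β := by
    refine le_trans ?_ hβ
    have h1 := log_card_pos (Fintype.card κ)
    have h2 : Real.log (Fintype.card κ + 2) ≤ Real.log (m + 3) := by
      refine Real.log_le_log (by positivity) ?_
      have : (Fintype.card κ : ℝ) ≤ m + 1 := by exact_mod_cast hm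
      linarith
    have h3 : c / Real.log (m + 3) ≤ c / Real.log (Fintype.card κ + 2) := by
      gcongr
    linarith
  have key := hV κ Gd (fun t v => ∑ i, ∑ a ∈ T i, q t i a v) g sl M ρ X θ0 β e η hGd hP hpert
    hgp hρ hX hθ hsep hM hβ' hβ1 he
  set S : ℝ := (∑ i, M i ^ (1 / β)) ^ (2 * β) with hS
  have hS1 : 1 ≤ S := by
    refine Real.one_le_rpow ?_ (by linarith)
    obtain ⟨i0⟩ := hκ
    calc (1 : ℝ) ≤ M i0 ^ (1 / β) := Real.one_le_rpow (hM1 i0) (by positivity)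
      _ ≤ ∑ i, M i ^ (1 / β) := Finset.single_le_sum (f := fun i => M i ^ (1 / β))
          (fun i _ => by have := hM i; positivity) (Finset.mem_univ i0)
  set Φ : ℝ≥0∞ := ∑ i, (∫⁻ v, ‖∑ a ∈ T i, p i a v‖ₑ ^ 2) ^ 2 * ENNReal.ofReal ((M i ^ 2)⁻¹)
    with hΦ
  have hΦle : Φ ≤ (K : ℝ≥0∞) ^ 2 * SB ^ 2 := by
    calc Φ ≤ ∑ i, ((K : ℝ≥0∞) * ∑ a ∈ T i, B i a) ^ 2 := by
          refine Finset.sum_le_sum fun i _ => ?_
          have h1 : ENNReal.ofReal ((M i ^ 2)⁻¹) ≤ 1 := by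
            rw [ENNReal.ofReal_le_one]
            exact inv_le_one_of_one_le₀ (one_le_pow₀ (hM1 i))
          calc _ ≤ ((K : ℝ≥0∞) * ∑ a ∈ T i, B i a) ^ 2 * 1 := by
                gcongr
                exact hL i
            _ = _ := mul_one _
      _ ≤ (∑ i, (K : ℝ≥0∞) * ∑ a ∈ T i, B i a) ^ 2 := sum_sq_le_sq_sum _ _
      _ = _ := by rw [← Finset.mul_sum]; ring
  have hinv : ENNReal.ofReal S⁻¹ ≤ 1 := by
    rw [ENNReal.ofReal_le_one]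
    exact inv_le_one_of_one_le₀ hS1
  have hmul : ENNReal.ofReal S * ENNReal.ofReal S⁻¹ = 1 := by
    rw [← ENNReal.ofReal_mul (by positivity), mul_inv_cancel₀ (by positivity),
      ENNReal.ofReal_one]
  set W : ℝ≥0∞ := ENNReal.ofReal S⁻¹ with hW
  have hE4 : ENNReal.ofReal ((1 + e) ^ 4) ≤ 1 + ENNReal.ofReal (15 * e) := by
    rw [← ENNReal.ofReal_one, ← ENNReal.ofReal_add zero_le_one (by positivity)]
    refine ENNReal.ofReal_le_ofReal ?_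
    nlinarith [mul_nonneg he.le (sub_nonneg.2 he1), mul_nonneg (mul_nonneg he.le he.le)
      (sub_nonneg.2 he1), mul_nonneg (mul_nonneg (mul_nonneg he.le he.le) he.le)
      (sub_nonneg.2 he1)]
  have hE3 : ENNReal.ofReal ((1 + e) ^ 3 * (1 + 1 / e)) ≤ ENNReal.ofReal (16 / e) := by
    refine ENNReal.ofReal_le_ofReal ?_
    have h1 : (1 + e) ^ 3 ≤ 8 := by
      calc (1 + e) ^ 3 ≤ 2 ^ 3 := by gcongr; linarith
        _ = 8 := by norm_num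
    have h2 : 1 + 1 / e ≤ 2 / e := by
      rw [le_div_iff₀ he, add_mul, one_div_mul_cancel he.ne']
      linarith
    calc (1 + e) ^ 3 * (1 + 1 / e) ≤ 8 * (2 / e) := by gcongr
      _ = 16 / e := by ring
  have hE5 : ENNReal.ofReal ((1 + 1 / e) ^ 3) ≤ ENNReal.ofReal (8 / e ^ 3) := by
    refine ENNReal.ofReal_le_ofReal ?_
    have h2 : 1 + 1 / e ≤ 2 / e := by
      rw [le_div_iff₀ he, add_mul, one_div_mul_cancel he.ne']
      linarith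
    calc (1 + 1 / e) ^ 3 ≤ (2 / e) ^ 3 := by gcongr
      _ = 8 / e ^ 3 := by rw [div_pow]; norm_num
  calc ∫⁻ t in Gd, (∫⁻ v, ‖∑ i, ∑ a ∈ T i, q t i a v‖ₑ ^ 2) ^ 2 * W
      = (∫⁻ t in Gd, (∫⁻ v, ‖∑ i, ∑ a ∈ T i, q t i a v‖ₑ ^ 2) ^ 2) * W := by
        rw [lintegral_mul_const' _ _ ENNReal.ofReal_ne_top]
    _ ≤ (ENNReal.ofReal X * (ENNReal.ofReal ((1 + e) ^ 4) *
          (ENNReal.ofReal S * Φ) +
        ENNReal.ofReal ((1 + e) ^ 3 * (1 + 1 / e)) * verr g ρ X θ0 ^ 2 +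
        ENNReal.ofReal ((1 + 1 / e) ^ 3) * η ^ 2)) * W := by gcongr
    _ = ENNReal.ofReal X * (ENNReal.ofReal ((1 + e) ^ 4) *
          (ENNReal.ofReal S * W) * Φ +
        ENNReal.ofReal ((1 + e) ^ 3 * (1 + 1 / e)) * verr g ρ X θ0 ^ 2 * W +
        ENNReal.ofReal ((1 + 1 / e) ^ 3) * η ^ 2 * W) := by ring
    _ ≤ ENNReal.ofReal X * ((1 + ENNReal.ofReal (15 * e)) * 1 * Φ +
        ENNReal.ofReal (16 / e) * ((K : ℝ≥0∞) ^ 2 *
          (e3 + ENNReal.ofReal (1 / (Real.pi * θ0 * ρ * X)) ^ (1 / 2 : ℝ)) * SB) ^ 2 * 1 +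
        ENNReal.ofReal (8 / e ^ 3) * η ^ 2 * 1) := by
        rw [hmul]
        gcongr
    _ = ENNReal.ofReal X * (Φ + (ENNReal.ofReal (15 * e) * Φ +
        ENNReal.ofReal (16 / e) * K ^ 4 *
          (e3 + ENNReal.ofReal (1 / (Real.pi * θ0 * ρ * X)) ^ (1 / 2 : ℝ)) ^ 2 * SB ^ 2 +
        4 * ENNReal.ofReal (8 / e ^ 3) * K ^ 2 * (e1 + e2) ^ 2 * SB ^ 2)) := by
        rw [hη]
        ring
    _ ≤ ENNReal.ofReal X * (Φ + (ENNReal.ofReal (15 * e) * (K ^ 2 * SB ^ 2) +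
        ENNReal.ofReal (16 / e) * K ^ 4 *
          (e3 + ENNReal.ofReal (1 / (Real.pi * θ0 * ρ * X)) ^ (1 / 2 : ℝ)) ^ 2 * SB ^ 2 +
        4 * ENNReal.ofReal (8 / e ^ 3) * K ^ 2 * (e1 + e2) ^ 2 * SB ^ 2)) := by
        gcongr
    _ = _ := by
        have h32 : ENNReal.ofReal (32 / e ^ 3) = 4 * ENNReal.ofReal (8 / e ^ 3) := by
          rw [show (4 : ℝ≥0∞) = ENNReal.ofReal 4 by norm_num, ← ENNReal.ofReal_mul (by norm_num)]
          congr 1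
          ring
        rw [h32]
        ring

end Vale.Agent.P112.H172
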