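import Vale.Agent.P112.H172.VCor

/-!
P112: the node inequality for profiles (field `node` of `H884.Rec`).
-/

namespace Vale.Agent.P112.H172

open Finset MeasureTheory
open scoped ENNReal FourierTransform

/-- [VNODE] + perturbation -/
theorem node_pieces : ∃ c : ℝ, 0 < c ∧ c ≤ 1 / 8 ∧ ∀ (κ : Type) [Fintype κ] (P : ℝ → ℝ → ℂ)
    (g : κ → ℝ → ℂ) (s M : κ → ℝ) (ρ X θ0 β e : ℝ) (η : ℝ≥0∞), (∀ t, Measurable (P t)) →
    (∀ t ∈ Set.Icc 0 X, ∫⁻ v, ‖P t v - mov g s t v‖ₑ ^ 2 ≤ η) →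
    (∀ i, Prof (g i)) → 0 < ρ → 0 < X → 0 < θ0 →
    (∀ i j, i ≠ j → 3 * ρ ≤ |s i - s j|) → (∀ i, 0 < M i) →
    1 - c / Real.log (Fintype.card κ + 2) ≤ β → β ≤ 1 → 0 < e →
    ∫⁻ t in Set.Icc 0 X, (∫⁻ v, ‖P t v‖ₑ ^ 2) ^ 2 ≤
      ENNReal.ofReal X * (ENNReal.ofReal ((1 + e) ^ 4) *
        (ENNReal.ofReal ((∑ i, M i ^ (1 / β)) ^ (2 * β)) *
          ∑ i, (∫⁻ v, ‖g i v‖ₑ ^ 2) ^ 2 * ENNReal.ofReal ((M i ^ 2)⁻¹)) +
        ENNReal.ofReal ((1 + e) ^ 3 * (1 + 1 / e)) * verr g ρ X θ0 ^ 2 +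
        ENNReal.ofReal ((1 + 1 / e) ^ 3) * η ^ 2) := by
  obtain ⟨c, hc, hc8, hV⟩ := vnode_gauge
  refine ⟨c, hc, hc8, ?_⟩
  intro κ _ P g s M ρ X θ0 β e η hP hη hg hρ hX hθ hsep hM hβ hβ1 he
  have h1 := hV κ g s M ρ X θ0 β e hg hρ hX hθ hsep hM hβ hβ1 he
  have hm : ∀ t, Prof (mov g s t) := fun t =>
    Prof.sum (Finset.univ : Finset κ) fun i => (hg i).shift (t * s i)
  have h2 : ∀ t ∈ Set.Icc 0 X, (∫⁻ v, ‖P t v‖ₑ ^ 2) ^ 2 ≤
      ENNReal.ofReal ((1 + e) ^ 3) * (∫⁻ v, ‖mov g s t v‖ₑ ^ 2) ^ 2 +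
        ENNReal.ofReal ((1 + 1 / e) ^ 3) * η ^ 2 := by
    intro t ht
    have h3 := pert (F := mov g s t) (E := fun v => P t v - mov g s t v) (hm t).meas
      ((hP t).sub (hm t).meas) he
    have e1 : ∀ v, mov g s t v + (P t v - mov g s t v) = P t v := fun v => by ring
    simp only [e1] at h3
    refine h3.trans ?_
    gcongr
    exact hη t ht
  have hmeas : Measurable fun t : ℝ => (∫⁻ v, ‖mov g s t v‖ₑ ^ 2) ^ 2 := by
    have h4 : Measurable fun q : ℝ × ℝ => ‖mov g s q.1 q.2‖ₑ ^ 2 := by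
      have : Measurable fun q : ℝ × ℝ => mov g s q.1 q.2 := by
        unfold mov
        refine Finset.measurable_sum _ fun i _ => ?_
        exact (hg i).meas.comp (by fun_prop)
      exact this.enorm.pow_const 2
    exact (Measurable.lintegral_prod_right h4).pow_const 2
  calc ∫⁻ t in Set.Icc 0 X, (∫⁻ v, ‖P t v‖ₑ ^ 2) ^ 2
      ≤ ∫⁻ t in Set.Icc 0 X, (ENNReal.ofReal ((1 + e) ^ 3) * (∫⁻ v, ‖mov g s t v‖ₑ ^ 2) ^ 2 +
        ENNReal.ofReal ((1 + 1 / e) ^ 3) * η ^ 2) :=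
        setLIntegral_mono ((hmeas.const_mul _).add_const _) h2
    _ = ENNReal.ofReal ((1 + e) ^ 3) *
          (∫⁻ t in Set.Ioc 0 X, (∫⁻ v, ‖mov g s t v‖ₑ ^ 2) ^ 2) +
        ENNReal.ofReal X * (ENNReal.ofReal ((1 + 1 / e) ^ 3) * η ^ 2) := by
        rw [lintegral_add_right _ measurable_const, lintegral_const_mul _ hmeas, setLIntegral_const,
          Real.volume_Icc, sub_zero, mul_comm (ENNReal.ofReal ((1 + 1 / e) ^ 3) * η ^ 2)]
        congr 2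
        exact setLIntegral_congr Ioc_ae_eq_Icc.symm
    _ ≤ ENNReal.ofReal ((1 + e) ^ 3) * (ENNReal.ofReal X * (ENNReal.ofReal (1 + e) *
        (ENNReal.ofReal ((∑ i, M i ^ (1 / β)) ^ (2 * β)) *
          ∑ i, (∫⁻ v, ‖g i v‖ₑ ^ 2) ^ 2 * ENNReal.ofReal ((M i ^ 2)⁻¹)) +
        ENNReal.ofReal (1 + 1 / e) * verr g ρ X θ0 ^ 2)) +
        ENNReal.ofReal X * (ENNReal.ofReal ((1 + 1 / e) ^ 3) * η ^ 2) := by gcongr
    _ = _ := by
        have e4 : ENNReal.ofReal ((1 + e) ^ 4) = ENNReal.ofReal ((1 + e) ^ 3) * ENNReal.ofReal (1 + e) := by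
          rw [← ENNReal.ofReal_mul (by positivity)]
          congr 1
        have e5 : ENNReal.ofReal ((1 + e) ^ 3 * (1 + 1 / e)) =
            ENNReal.ofReal ((1 + e) ^ 3) * ENNReal.ofReal (1 + 1 / e) :=
          ENNReal.ofReal_mul (by positivity)
        rw [e4, e5]
        ring

theorem Prof.sum' {ι : Type*} (S : Finset ι) {g : ι → ℝ → ℂ} (h : ∀ i ∈ S, Prof (g i)) :
    Prof fun v => ∑ i ∈ S, g i v where
  meas := Finset.measurable_sum S fun i hi => (h i hi).meas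
  i1 := integrable_finsetSum S fun i hi => (h i hi).i1
  i2 := memLp_finsetSum S fun i hi => (h i hi).i2

/-- the potential -/
noncomputable def phiP {ι : Type} (β : ℝ) (p : ι → ℝ × ℝ → ℝ → ℂ) (C : Finset ι) (z : ℝ × ℝ) : ℝ≥0∞ :=
  (∫⁻ v, ‖∑ a ∈ C, p a z v‖ₑ ^ 2) ^ 2 * ENNReal.ofReal (((C.card : ℝ) ^ (2 * β))⁻¹)

theorem enorm_sum_sq_le {ι : Type} (C : Finset ι) (f : ι → ℂ) :
    ‖∑ a ∈ C, f a‖ₑ ^ 2 ≤ (C.card : ℝ≥0∞) * ∑ a ∈ C, ‖f a‖ₑ ^ 2 := by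
  have h1 : ‖∑ a ∈ C, f a‖ ^ 2 ≤ (C.card : ℝ) * ∑ a ∈ C, ‖f a‖ ^ 2 := by
    have h2 := sq_sum_le_card_mul_sum_sq (s := C) (f := fun a => ‖f a‖)
    refine (pow_le_pow_left₀ (norm_nonneg _) (norm_sum_le _ _) 2).trans h2
  have h2 := ENNReal.ofReal_le_ofReal h1
  rw [ENNReal.ofReal_pow (norm_nonneg _), ofReal_norm, ENNReal.ofReal_mul (by positivity),
    ENNReal.ofReal_natCast, ENNReal.ofReal_sum_of_nonneg fun a _ => by positivity] at h2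
  refine h2.trans (le_of_eq ?_)
  congr 1
  refine Finset.sum_congr rfl fun a _ => ?_
  rw [ENNReal.ofReal_pow (norm_nonneg _), ofReal_norm]

theorem lint_sum_sq_le {ι : Type} (C : Finset ι) (f : ι → ℝ → ℂ) (hf : ∀ a ∈ C, Measurable (f a))
    (B : ι → ℝ≥0∞) (hB : ∀ a ∈ C, ∫⁻ v, ‖f a v‖ₑ ^ 2 ≤ B a) :
    ∫⁻ v, ‖∑ a ∈ C, f a v‖ₑ ^ 2 ≤ (C.card : ℝ≥0∞) * ∑ a ∈ C, B a := by
  calc ∫⁻ v, ‖∑ a ∈ C, f a v‖ₑ ^ 2 ≤ ∫⁻ v, (C.card : ℝ≥0∞) * ∑ a ∈ C, ‖f a v‖ₑ ^ 2 :=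
        lintegral_mono fun v => enorm_sum_sq_le C fun a => f a v
    _ = (C.card : ℝ≥0∞) * ∑ a ∈ C, ∫⁻ v, ‖f a v‖ₑ ^ 2 := by
        rw [lintegral_const_mul' _ _ (by finiteness), lintegral_finsetSum']
        intro a ha
        exact ((hf a ha).enorm.pow_const 2).aemeasurable
    _ ≤ _ := by
        gcongr with a ha
        exact hB a ha

theorem sum_sq_le_sq_sum {κ : Type} (E : Finset κ) (f : κ → ℝ≥0∞) :
    ∑ i ∈ E, f i ^ 2 ≤ (∑ i ∈ E, f i) ^ 2 := by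
  rw [sq (∑ i ∈ E, f i), Finset.sum_mul]
  refine Finset.sum_le_sum fun i hi => ?_
  rw [sq]
  gcongr
  exact Finset.single_le_sum (f := f) (fun _ _ => zero_le) hi

theorem phiP_le {ι : Type} {β : ℝ} (hβ : 1 / 2 ≤ β) (p : ι → ℝ × ℝ → ℝ → ℂ) (C : Finset ι)
    (z : ℝ × ℝ) (hp : ∀ a ∈ C, Measurable (p a z)) (B : ι → ℝ≥0∞)
    (hB : ∀ a ∈ C, ∫⁻ v, ‖p a z v‖ₑ ^ 2 ≤ B a) :
    phiP β p C z ≤ (C.card : ℝ≥0∞) * (∑ a ∈ C, B a) ^ 2 := by
  rcases C.eq_empty_or_nonempty with rfl | hC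
  · simp [phiP]
  have h1 := lint_sum_sq_le C (fun a v => p a z v) hp B hB
  have hc : (1 : ℝ) ≤ C.card := by exact_mod_cast hC.card_pos
  unfold phiP
  calc (∫⁻ v, ‖∑ a ∈ C, p a z v‖ₑ ^ 2) ^ 2 * ENNReal.ofReal (((C.card : ℝ) ^ (2 * β))⁻¹)
      ≤ ((C.card : ℝ≥0∞) * ∑ a ∈ C, B a) ^ 2 * ENNReal.ofReal (((C.card : ℝ) ^ (2 * β))⁻¹) := by
        gcongr
    _ = ((C.card : ℝ≥0∞) ^ 2 * ENNReal.ofReal (((C.card : ℝ) ^ (2 * β))⁻¹)) *
        (∑ a ∈ C, B a) ^ 2 := by ring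
    _ ≤ (C.card : ℝ≥0∞) * (∑ a ∈ C, B a) ^ 2 := by
        gcongr
        rw [← ENNReal.ofReal_natCast C.card, ← ENNReal.ofReal_pow (by positivity),
          ← ENNReal.ofReal_mul (by positivity)]
        refine ENNReal.ofReal_le_ofReal ?_
        have h2 : (C.card : ℝ) ≤ (C.card : ℝ) ^ (2 * β) := by
          calc (C.card : ℝ) = (C.card : ℝ) ^ (1 : ℝ) := (Real.rpow_one _).symm
            _ ≤ _ := Real.rpow_le_rpow_of_exponent_le hc (by linarith)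
        have h3 : (0 : ℝ) < (C.card : ℝ) ^ (2 * β) := by positivity
        rw [sq, mul_assoc, ← div_eq_mul_inv]
        have h4 : (C.card : ℝ) / (C.card : ℝ) ^ (2 * β) ≤ 1 := by
          rw [div_le_one h3]
          exact h2
        nlinarith

/-- **The node inequality for profiles.** -/
theorem node_prof : ∃ c : ℝ, 0 < c ∧ c ≤ 1 / 8 ∧ ∀ (ι : Type) [DecidableEq ι] (s : ι → ℝ)
    (C : Finset ι) (pcs : Finset (Finset ι)) (K m : ℕ) (p : ι → ℝ × ℝ → ℝ → ℂ)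
    (B : ι → ℝ≥0∞) (z : ℝ × ℝ) (σ X τ ρ θ0 β e : ℝ) (e1 e2 e3 : ℝ≥0∞),
    (∀ q ∈ pcs, q ⊆ C) → (∀ a ∈ C, ∃ q ∈ pcs, a ∈ q) → (∀ q ∈ pcs, q.Nonempty) →
    (∀ q ∈ pcs, ∀ q' ∈ pcs, q ≠ q' → Disjoint q q') →
    (∀ q ∈ pcs, ∀ a ∈ q, ∀ b ∈ q, |s a - s b| ≤ τ) →
    (∀ q ∈ pcs, ∀ q' ∈ pcs, q ≠ q' → ∀ a ∈ q, ∀ b ∈ q', 3 * ρ ≤ |s a - s b|) →
    C.card ≤ K → pcs.card ≤ m + 1 →
    0 < X → 0 < ρ → 0 < θ0 → 1 - c / Real.log (m + 3) ≤ β → β ≤ 1 → 0 < e → e ≤ 1 →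
    (∀ a ∈ C, ∀ w, Measurable (p a w)) → (∀ a ∈ C, Prof (p a z)) →
    (∀ a ∈ C, ∀ t, 0 ≤ t → t ≤ X → ∫⁻ v, ‖p a (z.1 + t, z.2 + t * σ) v -
      p a z (v - t * (s a - σ))‖ₑ ^ 2 ≤ e1 * B a) →
    (∀ a ∈ C, ∀ d : ℝ, |d| ≤ X * τ → ∫⁻ v, ‖p a z (v - d) - p a z v‖ₑ ^ 2 ≤ e2 * B a) →
    (∀ a ∈ C, ∫⁻ θ in Set.Ioo (-θ0) θ0, ‖𝓕 (p a z) θ‖ₑ ^ 2 ≤ e3 * B a) →
    (∀ a ∈ C, ∫⁻ v, ‖p a z v‖ₑ ^ 2 ≤ B a) →
    ∫⁻ t in Set.Icc 0 X, phiP β p C (z.1 + t, z.2 + t * σ) ≤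
      ENNReal.ofReal X * (∑ q ∈ pcs, phiP β p q z +
        (ENNReal.ofReal (15 * e) * K +
          ENNReal.ofReal (16 / e) * K ^ 4 *
            (e3 + ENNReal.ofReal (1 / (Real.pi * θ0 * ρ * X)) ^ (1 / 2 : ℝ)) ^ 2 +
          ENNReal.ofReal (32 / e ^ 3) * K ^ 2 * (e1 + e2) ^ 2) * (∑ a ∈ C, B a) ^ 2) := by
  obtain ⟨c, hc, hc8, hV⟩ := node_pieces
  refine ⟨c, hc, hc8, ?_⟩
  intro ι _ s C pcs K m p B z σ X τ ρ θ0 β e e1 e2 e3 hsub hcov hne hdis hin hout hK hm hX hρ hθ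
    hβ hβ1 he he1 hpm hpp H1 H2 H3 H4
  rcases C.eq_empty_or_nonempty with rfl | hCne
  · have h0 : ∀ w, phiP β p ∅ w = 0 := fun w => by simp [phiP]
    simp only [h0, lintegral_zero]
    exact zero_le
  -- constants
  have hlogm : 1 / 2 ≤ Real.log ((m : ℝ) + 3) := by
    have h1 := log_card_pos (m + 1)
    push_cast at h1
    have h2 : (m : ℝ) + 1 + 2 = m + 3 := by ring
    rwa [h2] at h1
  have hβ2 : 1 / 2 ≤ β := by
    have h1 : c / Real.log (m + 3) ≤ 1 / 4 := by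
      rw [div_le_iff₀ (by linarith)]
      nlinarith
    linarith
  have hcC : (1 : ℝ) ≤ C.card := by exact_mod_cast hCne.card_pos
  have hCU : C = pcs.biUnion id := by
    ext a
    rw [mem_biUnion]
    constructor
    · intro ha
      obtain ⟨q, hq, haq⟩ := hcov a ha
      exact ⟨q, hq, haq⟩
    · rintro ⟨q, hq, haq⟩
      exact hsub q hq haq
  have hpd : Set.PairwiseDisjoint (pcs : Set (Finset ι)) id := fun q hq q' hq' hne' =>
    hdis q hq q' hq' hne'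
  have hsum : ∀ {M : Type} [AddCommMonoid M] (f : ι → M),
      ∑ q ∈ pcs, ∑ a ∈ q, f a = ∑ a ∈ C, f a := by
    intro M _ f
    rw [hCU, Finset.sum_biUnion hpd]
    rfl
  have hpc : pcs.card ≤ C.card := by
    have h1 : ∑ q ∈ pcs, ∑ a ∈ q, 1 = ∑ a ∈ C, 1 := hsum (fun _ => 1)
    simp only [Finset.sum_const, smul_eq_mul, mul_one] at h1
    rw [← h1, Finset.card_eq_sum_ones]
    exact Finset.sum_le_sum fun q hq => (hne q hq).card_pos
  have hrep : ∀ q : {q // q ∈ pcs}, ∃ a, a ∈ q.1 := fun q => hne q.1 q.2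
  choose r hr using hrep
  set g : {q // q ∈ pcs} → ℝ → ℂ := fun q v => ∑ a ∈ q.1, p a z v with hg
  set sl : {q // q ∈ pcs} → ℝ := fun q => s (r q) - σ with hsl
  set SB : ℝ≥0∞ := ∑ a ∈ C, B a with hSB
  have hcard : Fintype.card {q // q ∈ pcs} = pcs.card := by simp
  have hqK : ∀ q ∈ pcs, q.card ≤ K := fun q hq => (card_le_card (hsub q hq)).trans hK
  have hL : ∀ q ∈ pcs, ∫⁻ v, ‖∑ a ∈ q, p a z v‖ₑ ^ 2 ≤ (K : ℝ≥0∞) * ∑ a ∈ q, B a := by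
    intro q hq
    refine (lint_sum_sq_le q (fun a v => p a z v) (fun a ha => hpm a (hsub q hq ha) z) B
      (fun a ha => H4 a (hsub q hq ha))).trans ?_
    gcongr
    exact hqK q hq
  have hFq : ∀ q ∈ pcs, ∫⁻ θ in Set.Ioo (-θ0) θ0, ‖𝓕 (fun v => ∑ a ∈ q, p a z v) θ‖ₑ ^ 2 ≤
      (K : ℝ≥0∞) * (e3 * ∑ a ∈ q, B a) := by
    intro q hq
    have h1 : ∀ θ, 𝓕 (fun v => ∑ a ∈ q, p a z v) θ = ∑ a ∈ q, 𝓕 (p a z) θ := by
      intro θ
      simp only [Real.fourier_real_eq_integral_exp_smul]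
      simp only [smul_eq_mul, Finset.mul_sum]
      rw [integral_finsetSum]
      intro a ha
      refine (hpp a (hsub q hq ha)).i1.bdd_mul (c := 1) (by fun_prop) ?_
      refine Filter.Eventually.of_forall fun v => ?_
      rw [Complex.norm_exp]
      simp
    simp only [h1]
    calc ∫⁻ θ in Set.Ioo (-θ0) θ0, ‖∑ a ∈ q, 𝓕 (p a z) θ‖ₑ ^ 2
        ≤ ∫⁻ θ in Set.Ioo (-θ0) θ0, (q.card : ℝ≥0∞) * ∑ a ∈ q, ‖𝓕 (p a z) θ‖ₑ ^ 2 :=
          lintegral_mono fun θ => enorm_sum_sq_le q _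
      _ = (q.card : ℝ≥0∞) * ∑ a ∈ q, ∫⁻ θ in Set.Ioo (-θ0) θ0, ‖𝓕 (p a z) θ‖ₑ ^ 2 := by
          rw [lintegral_const_mul' _ _ (by finiteness), lintegral_finsetSum']
          intro a ha
          exact ((continuous_fourier_prof (hpp a (hsub q hq ha)).i1).measurable.enorm.pow_const
            2).aemeasurable
      _ ≤ (K : ℝ≥0∞) * ∑ a ∈ q, e3 * B a := by
          gcongr with a ha
          · exact hqK q hq
          · exact H3 a (hsub q hq ha)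
      _ = _ := by rw [← Finset.mul_sum]
  have hverr : verr g ρ X θ0 ≤ (K : ℝ≥0∞) ^ 2 *
      (e3 + ENNReal.ofReal (1 / (Real.pi * θ0 * ρ * X)) ^ (1 / 2 : ℝ)) * SB := by
    unfold verr
    rw [hcard]
    have h1 : ∑ q : {q // q ∈ pcs}, ∫⁻ v, ‖g q v‖ₑ ^ 2 ≤ (K : ℝ≥0∞) * SB := by
      rw [Finset.univ_eq_attach, Finset.sum_attach pcs fun q => ∫⁻ v, ‖∑ a ∈ q, p a z v‖ₑ ^ 2]
      refine (Finset.sum_le_sum hL).trans (le_of_eq ?_)
      rw [← Finset.mul_sum, hsum]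
    have h2 : ∑ q : {q // q ∈ pcs}, ∫⁻ θ in Set.Ioo (-θ0) θ0, ‖𝓕 (g q) θ‖ₑ ^ 2 ≤
        (K : ℝ≥0∞) * (e3 * SB) := by
      rw [Finset.univ_eq_attach, Finset.sum_attach pcs fun q =>
        ∫⁻ θ in Set.Ioo (-θ0) θ0, ‖𝓕 (fun v => ∑ a ∈ q, p a z v) θ‖ₑ ^ 2]
      refine (Finset.sum_le_sum hFq).trans (le_of_eq ?_)
      rw [← Finset.mul_sum, ← Finset.mul_sum, hsum]
    calc _ ≤ (K : ℝ≥0∞) * (ENNReal.ofReal (1 / (Real.pi * θ0 * ρ * X)) ^ (1 / 2 : ℝ) *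
          ((K : ℝ≥0∞) * SB) + (K : ℝ≥0∞) * (e3 * SB)) := by
          gcongr
          exact hpc.trans hK
      _ = _ := by ring
  set η : ℝ≥0∞ := 2 * (K : ℝ≥0∞) * (e1 + e2) * SB with hη
  have hpert : ∀ t ∈ Set.Icc 0 X, ∫⁻ v, ‖(∑ a ∈ C, p a (z.1 + t, z.2 + t * σ) v) -
      mov g sl t v‖ₑ ^ 2 ≤ η := by
    intro t ht
    -- the representative of the piece of `a`
    have hex : ∀ a : ι, ∃ x : ℝ, ∀ q : {q // q ∈ pcs}, a ∈ q.1 → x = sl q := by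
      intro a
      by_cases ha : ∃ q : {q // q ∈ pcs}, a ∈ q.1
      · obtain ⟨q, hq⟩ := ha
        refine ⟨sl q, fun q' hq' => ?_⟩
        have : q = q' := by
          by_contra hn
          have h1 := hdis q.1 q.2 q'.1 q'.2 (fun h => hn (Subtype.ext h))
          exact (Finset.disjoint_left.1 h1) hq hq'
        rw [this]
      · exact ⟨0, fun q hq => absurd ⟨q, hq⟩ ha⟩
    choose x hx using hex
    have hmov : ∀ v, mov g sl t v = ∑ a ∈ C, p a z (v - t * x a) := by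
      intro v
      unfold mov
      rw [← hsum, Finset.univ_eq_attach,
        ← Finset.sum_attach pcs fun q => ∑ a ∈ q, p a z (v - t * x a)]
      refine Finset.sum_congr rfl fun q _ => ?_
      simp only [hg]
      refine Finset.sum_congr rfl fun a ha => ?_
      rw [hx a q ha]
    have h1 : ∀ v, (∑ a ∈ C, p a (z.1 + t, z.2 + t * σ) v) - mov g sl t v =
        ∑ a ∈ C, (p a (z.1 + t, z.2 + t * σ) v - p a z (v - t * x a)) := by
      intro v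
      rw [hmov, Finset.sum_sub_distrib]
    simp only [h1]
    have h2 : ∀ a ∈ C, ∫⁻ v, ‖p a (z.1 + t, z.2 + t * σ) v - p a z (v - t * x a)‖ₑ ^ 2 ≤
        2 * (e1 + e2) * B a := by
      intro a ha
      obtain ⟨q, hq, haq⟩ := hcov a ha
      have hxa : x a = s (r ⟨q, hq⟩) - σ := hx a ⟨q, hq⟩ haq
      set d : ℝ := t * (s (r ⟨q, hq⟩) - s a) with hd
      have hdX : |d| ≤ X * τ := by
        rw [hd, abs_mul, abs_of_nonneg ht.1]
        have h3 := hin q hq _ (hr ⟨q, hq⟩) a haq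
        have h4 := abs_nonneg (s (r ⟨q, hq⟩) - s a)
        exact mul_le_mul ht.2 h3 h4 hX.le
      have h5 : ∫⁻ v, ‖p a z (v - t * (s a - σ)) - p a z (v - t * x a)‖ₑ ^ 2 ≤ e2 * B a := by
        have h6 := H2 a ha d hdX
        have h7 := lintegral_sub_right_eq_self (μ := (volume : Measure ℝ))
          (fun v => ‖p a z (v - d) - p a z v‖ₑ ^ 2) (t * (s a - σ))
        rw [← h7] at h6
        refine le_trans (le_of_eq ?_) h6
        refine lintegral_congr fun v => ?_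
        rw [← enorm_neg, neg_sub]
        congr 3
        rw [hxa, hd]
        congr 1
        ring
      have hm1 : Measurable fun v => p a (z.1 + t, z.2 + t * σ) v - p a z (v - t * (s a - σ)) :=
        (hpm a ha _).sub ((hpm a ha z).comp (measurable_id.sub_const _))
      calc ∫⁻ v, ‖p a (z.1 + t, z.2 + t * σ) v - p a z (v - t * x a)‖ₑ ^ 2
          ≤ ∫⁻ v, (2 * ‖p a (z.1 + t, z.2 + t * σ) v - p a z (v - t * (s a - σ))‖ₑ ^ 2 +
            2 * ‖p a z (v - t * (s a - σ)) - p a z (v - t * x a)‖ₑ ^ 2) := by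
            refine lintegral_mono fun v => ?_
            have h8 : p a (z.1 + t, z.2 + t * σ) v - p a z (v - t * x a) =
                (p a (z.1 + t, z.2 + t * σ) v - p a z (v - t * (s a - σ))) +
                (p a z (v - t * (s a - σ)) - p a z (v - t * x a)) := by ring
            rw [h8]
            have h9 := sq_add_le ‖p a (z.1 + t, z.2 + t * σ) v - p a z (v - t * (s a - σ))‖ₑ
              ‖p a z (v - t * (s a - σ)) - p a z (v - t * x a)‖ₑ (e := 1) one_pos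
            have h10 : ENNReal.ofReal (1 + 1) = 2 := by norm_num
            have h11 : ENNReal.ofReal (1 + 1 / 1) = 2 := by norm_num
            rw [h10, h11] at h9
            refine le_trans ?_ h9
            gcongr
            exact enorm_add_le _ _
        _ = 2 * (∫⁻ v, ‖p a (z.1 + t, z.2 + t * σ) v - p a z (v - t * (s a - σ))‖ₑ ^ 2) +
            2 * ∫⁻ v, ‖p a z (v - t * (s a - σ)) - p a z (v - t * x a)‖ₑ ^ 2 := by
            rw [lintegral_add_left ((hm1.enorm.pow_const 2).const_mul 2),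
              lintegral_const_mul' _ _ (by finiteness), lintegral_const_mul' _ _ (by finiteness)]
        _ ≤ 2 * (e1 * B a) + 2 * (e2 * B a) := by
            gcongr
            exact H1 a ha t ht.1 ht.2
        _ = _ := by ring
    refine (lint_sum_sq_le C (fun a v => p a (z.1 + t, z.2 + t * σ) v - p a z (v - t * x a))
      (fun a ha => (hpm a ha _).sub ((hpm a ha z).comp (measurable_id.sub_const _)))
      (fun a => 2 * (e1 + e2) * B a) h2).trans ?_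
    rw [hη, ← Finset.mul_sum, hSB]
    calc (C.card : ℝ≥0∞) * (2 * (e1 + e2) * ∑ a ∈ C, B a)
        ≤ (K : ℝ≥0∞) * (2 * (e1 + e2) * ∑ a ∈ C, B a) := by
          gcongr
      _ = _ := by ring
  have hP : ∀ t, Measurable fun v => ∑ a ∈ C, p a (z.1 + t, z.2 + t * σ) v := fun t =>
    Finset.measurable_sum _ fun a ha => hpm a ha _
  have hgp : ∀ q : {q // q ∈ pcs}, Prof (g q) := fun q =>
    Prof.sum' q.1 fun a ha => hpp a (hsub q.1 q.2 ha)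
  have hsep : ∀ i j : {q // q ∈ pcs}, i ≠ j → 3 * ρ ≤ |sl i - sl j| := by
    intro i j hij
    have h1 := hout i.1 i.2 j.1 j.2 (fun h => hij (Subtype.ext h)) _ (hr i) _ (hr j)
    simp only [hsl]
    have h2 : s (r i) - σ - (s (r j) - σ) = s (r i) - s (r j) := by ring
    rwa [h2]
  have hM : ∀ i : {q // q ∈ pcs}, 0 < (i.1.card : ℝ) ^ β := by
    intro i
    have : (0 : ℝ) < i.1.card := by exact_mod_cast (hne i.1 i.2).card_pos
    positivity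
  have hβ' : 1 - c / Real.log (Fintype.card {q // q ∈ pcs} + 2) ≤ β := by
    refine le_trans ?_ hβ
    have h1 := log_card_pos (Fintype.card {q // q ∈ pcs})
    have h2 : Real.log (Fintype.card {q // q ∈ pcs} + 2) ≤ Real.log (m + 3) := by
      refine Real.log_le_log (by positivity) ?_
      rw [hcard]
      have : (pcs.card : ℝ) ≤ m + 1 := by exact_mod_cast hm
      linarith
    have h3 : c / Real.log (m + 3) ≤ c / Real.log (Fintype.card {q // q ∈ pcs} + 2) := by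
      gcongr
    linarith
  have key := hV {q // q ∈ pcs} (fun t v => ∑ a ∈ C, p a (z.1 + t, z.2 + t * σ) v) g sl
    (fun q => (q.1.card : ℝ) ^ β) ρ X θ0 β e η hP hpert hgp hρ hX hθ hsep hM hβ' hβ1 he
  have hg1 : (∑ i : {q // q ∈ pcs}, ((i.1.card : ℝ) ^ β) ^ (1 / β)) ^ (2 * β) =
      (C.card : ℝ) ^ (2 * β) := by
    congr 1
    have h1 : ∀ i : {q // q ∈ pcs}, ((i.1.card : ℝ) ^ β) ^ (1 / β) = (i.1.card : ℝ) := by
      intro i
      rw [← Real.rpow_mul (by positivity), mul_one_div, div_self (by linarith), Real.rpow_one]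
    simp only [h1]
    rw [Finset.univ_eq_attach, Finset.sum_attach pcs fun q => (q.card : ℝ)]
    have h2 : ∑ q ∈ pcs, ∑ a ∈ q, (1 : ℝ) = ∑ a ∈ C, (1 : ℝ) := hsum (fun _ => (1 : ℝ))
    simpa using h2
  have hg2 : ∑ i : {q // q ∈ pcs}, (∫⁻ v, ‖g i v‖ₑ ^ 2) ^ 2 *
      ENNReal.ofReal ((((i.1.card : ℝ) ^ β) ^ 2)⁻¹) = ∑ q ∈ pcs, phiP β p q z := by
    rw [Finset.univ_eq_attach, ← Finset.sum_attach pcs fun q => phiP β p q z]
    refine Finset.sum_congr rfl fun q _ => ?_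
    unfold phiP
    congr 3
    rw [← Real.rpow_natCast, ← Real.rpow_mul (by positivity)]
    congr 1
    push_cast
    ring
  rw [hg1, hg2] at key
  set Φ : ℝ≥0∞ := ∑ q ∈ pcs, phiP β p q z with hΦ
  have hΦle : Φ ≤ (K : ℝ≥0∞) * SB ^ 2 := by
    calc Φ ≤ ∑ q ∈ pcs, (K : ℝ≥0∞) * (∑ a ∈ q, B a) ^ 2 := by
          refine Finset.sum_le_sum fun q hq => ?_
          refine (phiP_le hβ2 p q z (fun a ha => hpm a (hsub q hq ha) z) B
            (fun a ha => H4 a (hsub q hq ha))).trans ?_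
          gcongr
          exact hqK q hq
      _ = (K : ℝ≥0∞) * ∑ q ∈ pcs, (∑ a ∈ q, B a) ^ 2 := by rw [Finset.mul_sum]
      _ ≤ (K : ℝ≥0∞) * (∑ q ∈ pcs, ∑ a ∈ q, B a) ^ 2 := by
          gcongr
          exact sum_sq_le_sq_sum _ _
      _ = _ := by rw [hsum]
  have hC2 : (1 : ℝ) ≤ (C.card : ℝ) ^ (2 * β) := Real.one_le_rpow hcC (by linarith)
  have hinv : ENNReal.ofReal (((C.card : ℝ) ^ (2 * β))⁻¹) ≤ 1 := by
    rw [ENNReal.ofReal_le_one]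
    exact inv_le_one_of_one_le₀ hC2
  have hmul : ENNReal.ofReal ((C.card : ℝ) ^ (2 * β)) *
      ENNReal.ofReal (((C.card : ℝ) ^ (2 * β))⁻¹) = 1 := by
    rw [← ENNReal.ofReal_mul (by positivity), mul_inv_cancel₀ (by positivity),
      ENNReal.ofReal_one]
  set W : ℝ≥0∞ := ENNReal.ofReal (((C.card : ℝ) ^ (2 * β))⁻¹) with hW
  have hE4 : ENNReal.ofReal ((1 + e) ^ 4) ≤ 1 + ENNReal.ofReal (15 * e) := by
    rw [← ENNReal.ofReal_one, ← ENNReal.ofReal_add zero_le_one (by positivity)]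
    refine ENNReal.ofReal_le_ofReal ?_
    nlinarith [mul_nonneg he.le (sub_nonneg.2 he1), mul_nonneg (mul_nonneg he.le he.le)
      (sub_nonneg.2 he1), mul_nonneg (mul_nonneg (mul_nonneg he.le he.le) he.le)
      (sub_nonneg.2 he1)]
  have hE3 : ENNReal.ofReal ((1 + e) ^ 3 * (1 + 1 / e)) ≤ ENNReal.ofReal (16 / e) := by
    refine ENNReal.ofReal_le_ofReal ?_
    have h1 : (1 + e) ^ 3 ≤ 8 := by
      calc (1 + e) ^ 3 ≤ 2 ^ 3 := by gcongr; linarith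
        _ = 8 := by norm_num
    have h2 : 1 + 1 / e ≤ 2 / e := by
      rw [le_div_iff₀ he, add_mul, one_div_mul_cancel he.ne']
      linarith
    calc (1 + e) ^ 3 * (1 + 1 / e) ≤ 8 * (2 / e) := by gcongr
      _ = 16 / e := by ring
  have hE5 : ENNReal.ofReal ((1 + 1 / e) ^ 3) ≤ ENNReal.ofReal (8 / e ^ 3) := by
    refine ENNReal.ofReal_le_ofReal ?_
    have h2 : 1 + 1 / e ≤ 2 / e := by
      rw [le_div_iff₀ he, add_mul, one_div_mul_cancel he.ne']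
      linarith
    calc (1 + 1 / e) ^ 3 ≤ (2 / e) ^ 3 := by gcongr
      _ = 8 / e ^ 3 := by rw [div_pow]; norm_num
  calc ∫⁻ t in Set.Icc 0 X, phiP β p C (z.1 + t, z.2 + t * σ)
      = (∫⁻ t in Set.Icc 0 X, (∫⁻ v, ‖∑ a ∈ C, p a (z.1 + t, z.2 + t * σ) v‖ₑ ^ 2) ^ 2) * W := by
        unfold phiP
        rw [lintegral_mul_const' _ _ ENNReal.ofReal_ne_top]
    _ ≤ (ENNReal.ofReal X * (ENNReal.ofReal ((1 + e) ^ 4) *
          (ENNReal.ofReal ((C.card : ℝ) ^ (2 * β)) * Φ) +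
        ENNReal.ofReal ((1 + e) ^ 3 * (1 + 1 / e)) * verr g ρ X θ0 ^ 2 +
        ENNReal.ofReal ((1 + 1 / e) ^ 3) * η ^ 2)) * W := by gcongr
    _ = ENNReal.ofReal X * (ENNReal.ofReal ((1 + e) ^ 4) *
          (ENNReal.ofReal ((C.card : ℝ) ^ (2 * β)) * W) * Φ +
        ENNReal.ofReal ((1 + e) ^ 3 * (1 + 1 / e)) * verr g ρ X θ0 ^ 2 * W +
        ENNReal.ofReal ((1 + 1 / e) ^ 3) * η ^ 2 * W) := by ring
    _ ≤ ENNReal.ofReal X * ((1 + ENNReal.ofReal (15 * e)) * 1 * Φ +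
        ENNReal.ofReal (16 / e) * ((K : ℝ≥0∞) ^ 2 *
          (e3 + ENNReal.ofReal (1 / (Real.pi * θ0 * ρ * X)) ^ (1 / 2 : ℝ)) * SB) ^ 2 * 1 +
        ENNReal.ofReal (8 / e ^ 3) * η ^ 2 * 1) := by
        rw [hmul]
        gcongr
    _ = ENNReal.ofReal X * (Φ + (ENNReal.ofReal (15 * e) * Φ +
        ENNReal.ofReal (16 / e) * K ^ 4 *
          (e3 + ENNReal.ofReal (1 / (Real.pi * θ0 * ρ * X)) ^ (1 / 2 : ℝ)) ^ 2 * SB ^ 2 +
        4 * ENNReal.ofReal (8 / e ^ 3) * K ^ 2 * (e1 + e2) ^ 2 * SB ^ 2)) := by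
        rw [hη]
        ring
    _ ≤ ENNReal.ofReal X * (Φ + (ENNReal.ofReal (15 * e) * (K * SB ^ 2) +
        ENNReal.ofReal (16 / e) * K ^ 4 *
          (e3 + ENNReal.ofReal (1 / (Real.pi * θ0 * ρ * X)) ^ (1 / 2 : ℝ)) ^ 2 * SB ^ 2 +
        4 * ENNReal.ofReal (8 / e ^ 3) * K ^ 2 * (e1 + e2) ^ 2 * SB ^ 2)) := by
        gcongr
    _ = _ := by
        have h32 : ENNReal.ofReal (32 / e ^ 3) = 4 * ENNReal.ofReal (8 / e ^ 3) := by
          rw [show (4 : ℝ≥0∞) = ENNReal.ofReal 4 by norm_num, ← ENNReal.ofReal_mul (by norm_num)]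
          congr 1
          ring
        rw [h32]
        ring

end Vale.Agent.P112.H172
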