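import Mathlib

/-!
# P112, chapter (G): all numbers of the gain theorem

`C0, k0` are arbitrary (they dominate all absolute constants and all polynomial losses `C L ^ k`);
every exponent below depends on `C0, k0` only, the gain `L ^ (-B)` is arbitrary.
-/

open Filter Real Topology

namespace Vale.Agent.P112.H172.Num

/-! ### domination -/

theorem ev_one : ∀ᶠ L : ℝ in atTop, 1 ≤ L := eventually_ge_atTop 1

theorem ev_pow (C : ℝ) {i j : ℕ} (h : i < j) : ∀ᶠ L : ℝ in atTop, C * L ^ i ≤ L ^ j := by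
  filter_upwards [eventually_ge_atTop (max C 1)] with L hL
  have h1 : 1 ≤ L := (le_max_right _ _).trans hL
  have h2 : C ≤ L := (le_max_left _ _).trans hL
  calc C * L ^ i ≤ L * L ^ i := by gcongr
    _ = L ^ (i + 1) := by ring
    _ ≤ L ^ j := pow_le_pow_right₀ h1 h

theorem ev_exp (C : ℝ) (k : ℕ) {c : ℝ} (hc : 0 < c) :
    ∀ᶠ L : ℝ in atTop, C * L ^ k ≤ exp (c * L) := by
  have h1 := (isLittleO_pow_exp_pos_mul_atTop (k := k) hc).def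
    (c := 1 / (|C| + 1)) (by positivity)
  filter_upwards [h1, ev_one] with L hL h1L
  rw [Real.norm_eq_abs, Real.norm_eq_abs, abs_of_nonneg (by positivity),
    abs_of_pos (exp_pos _)] at hL
  have h2 : 0 < |C| + 1 := by positivity
  have h3 : (|C| + 1) * L ^ k ≤ exp (c * L) := by
    calc (|C| + 1) * L ^ k ≤ (|C| + 1) * (1 / (|C| + 1) * exp (c * L)) := by gcongr
      _ = exp (c * L) := by field_simp
  refine le_trans ?_ h3
  gcongr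
  linarith [le_abs_self C]

/-- `L ^ k * exp (- c L / log L)` is small. -/
theorem ev_gain (C : ℝ) (k : ℕ) {c : ℝ} (hc : 0 < c) :
    ∀ᶠ L : ℝ in atTop, C * L ^ k * exp (-(c * L / log L)) ≤ 1 := by
  have h1 : ∀ᶠ y : ℝ in atTop, C * y ^ (2 * k) ≤ exp (c / 2 * y) := ev_exp C (2 * k) (by positivity)
  have h2 : Tendsto (fun L : ℝ => √L) atTop atTop := Real.tendsto_sqrt_atTop
  filter_upwards [h2.eventually h1, eventually_ge_atTop (Real.exp 1)] with L hL hLe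
  have hL0 : 0 < L := (exp_pos 1).trans_le hLe
  have hlog : 1 ≤ log L := by
    rw [Real.le_log_iff_exp_le hL0]
    exact hLe
  have hlogL : log L ≤ 2 * √L := by
    have h3 : log √L ≤ √L := by
      have := Real.log_le_sub_one_of_pos (Real.sqrt_pos.2 hL0)
      linarith
    rw [Real.log_sqrt hL0.le] at h3
    linarith
  have hsq : √L * √L = L := Real.mul_self_sqrt hL0.le
  have h4 : c / 2 * √L ≤ c * L / log L := by
    rw [le_div_iff₀ (by linarith)]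
    calc c / 2 * √L * log L ≤ c / 2 * √L * (2 * √L) := by gcongr
      _ = c * (√L * √L) := by ring
      _ = c * L := by rw [hsq]
  have h5 : C * L ^ k ≤ exp (c * L / log L) := by
    have h6 : (√L) ^ (2 * k) = L ^ k := by
      rw [pow_mul, Real.sq_sqrt hL0.le]
    rw [h6] at hL
    exact hL.trans (exp_le_exp.2 h4)
  rw [Real.exp_neg, ← div_eq_mul_inv, div_le_one (exp_pos _)]
  exact h5

/-! ### the numbers -/

/-- the polynomial loss -/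
noncomputable def P (C0 : ℝ) (k0 : ℕ) (L : ℝ) : ℝ := C0 * L ^ k0

/-- the number of arcs -/
noncomputable def m (k0 : ℕ) (L : ℝ) : ℕ := ⌈L ^ (2 * k0 + 2)⌉₊

/-- the maximal number of active tubes -/
noncomputable def K (C1 : ℝ) (L : ℝ) : ℕ := ⌈exp (C1 * L)⌉₊

noncomputable def K1 (C0 : ℝ) (k0 : ℕ) (L : ℝ) : ℕ := ⌈P C0 k0 L⌉₊

noncomputable def A2 (C1 L : ℝ) : ℝ := exp ((8 * C1 + 10) * L)

noncomputable def Ac (C1 : ℝ) (k0 : ℕ) (L : ℝ) : ℝ :=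
  (4 * (m k0 L + 1) * A2 C1 L) ^ (m k0 L + 3)

noncomputable def H1 (C1 : ℝ) (k0 : ℕ) (L : ℝ) : ℝ :=
  4 * (2 * Ac C1 k0 L + 1) ^ (2 * m k0 L + 2)

noncomputable def del (C0 C1 : ℝ) (k0 : ℕ) (L : ℝ) : ℝ :=
  exp (-(C0 * L)) / (4 * m k0 L * K C1 L)

/-- the margin of the node inequality -/
noncomputable def X (C1 : ℝ) (k0 : ℕ) (L : ℝ) : ℝ :=
  √(A2 C1 L) * ((Ac C1 k0 L + 1) * (3 * Ac C1 k0 L) ^ (m k0 L + 2))

/-- the height of the windows -/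
noncomputable def H0 (k0 : ℕ) (L : ℝ) : ℝ := exp (L ^ (4 * k0 + 12))

/-- the separation -/
noncomputable def Q (k0 : ℕ) (L : ℝ) : ℝ := exp (L ^ (4 * k0 + 13))

/-- All inequalities. `C1` : number of tubes `≤ exp (C1 L)`. `C0` : all small margins are
`exp (-C0 L)`, all polynomial losses are `≤ C0 L ^ k0`. -/
structure OK (C0 C1 : ℝ) (k0 B : ℕ) (L : ℝ) : Prop where
  L3 : 3 ≤ L
  C0_1 : 1 ≤ C0
  C1_1 : 1 ≤ C1
  P1 : 1 ≤ P C0 k0 L
  P_exp : P C0 k0 L ≤ exp L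
  m1 : 1 ≤ m k0 L
  m_ge : L ^ (2 * k0 + 2) ≤ m k0 L
  m_le : (m k0 L : ℝ) + 3 ≤ L ^ (2 * k0 + 3)
  m_exp : 14 * ((m k0 L : ℝ) + 3) ≤ exp L
  K_ge : exp (C1 * L) ≤ K C1 L
  K_le : (K C1 L : ℝ) ≤ exp ((C1 + 1) * L)
  K1_ge : P C0 k0 L ≤ K1 C0 k0 L
  K1_le : (K1 C0 k0 L : ℝ) ≤ 2 * P C0 k0 L
  /-- exceptional sets of the arcs -/
  arc : ((1 : ℝ) / 2) ^ (m k0 L / K1 C0 k0 L) ≤ exp (-(P C0 k0 L * L))
  A21 : 1 ≤ A2 C1 L
  /-- the error of the node inequality -/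
  err : (K C1 L : ℝ) * (m k0 L * (14 * (K C1 L : ℝ) ^ 3 / √(A2 C1 L))) ≤ 1
  Ac1 : 1 ≤ Ac C1 k0 L
  Ac_le : Ac C1 k0 L ≤ exp (L ^ (2 * k0 + 5))
  H1_4 : 4 ≤ H1 C1 k0 L
  H1_le : H1 C1 k0 L ≤ exp (L ^ (4 * k0 + 11))
  X_le : X C1 k0 L ≤ exp (L ^ (4 * k0 + 11))
  X_pos : 0 < X C1 k0 L
  del_pos : 0 < del C0 C1 k0 L
  /-- safety margin of the heart -/
  del_le : 2 * m k0 L * K C1 L * del C0 C1 k0 L ≤ exp (-(C0 * L)) / 2
  H0_1 : 1 ≤ H0 k0 L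
  H0_ge : exp (C0 * L) ≤ H0 k0 L
  Q_1 : 1 ≤ Q k0 L
  /-- box heights `exp (-C0 L) H0`, frequencies `≥ exp (-C0 L)` -/
  box : X C1 k0 L * P C0 k0 L ≤
    del C0 C1 k0 L * (exp (-(C0 * L)) * (exp (-(C0 * L)) * H0 k0 L))
  sep : X C1 k0 L * P C0 k0 L ≤
    del C0 C1 k0 L * (exp (-(C0 * L)) * (exp (-(C0 * L)) * Q k0 L))
  /-- windows are much lower than the separation -/
  win : P C0 k0 L * exp (C0 * L) * H1 C1 k0 L * H0 k0 L ^ 2 ≤ Q k0 L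
  /-- Lipschitz constants `≤ exp (-L ^ A)` with `A ≥ 4 k0 + 15` -/
  lip : exp (-L ^ (4 * k0 + 15)) *
    (P C0 k0 L * exp (C0 * L) * H1 C1 k0 L * Q k0 L ^ 2 * K C1 L) ≤ 1
  /-- final gains -/
  gain_exp : P C0 k0 L * exp (-(L / C0)) * L ^ B ≤ 1
  gain_log : P C0 k0 L * log (m k0 L + 3) ^ k0 * exp (-(L / C0 / log (m k0 L + 3))) * L ^ B ≤ 1

section
variable {C0 C1 L : ℝ} {k0 : ℕ}

theorem pow_one_le (hL1 : 1 ≤ L) (i : ℕ) : 1 ≤ L ^ i := one_le_pow₀ hL1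

theorem le_pow (hL1 : 1 ≤ L) {i : ℕ} (hi : 1 ≤ i) : L ≤ L ^ i := by
  calc L = L ^ 1 := (pow_one L).symm
    _ ≤ _ := pow_le_pow_right₀ hL1 hi

theorem P_one (hC : 1 ≤ C0) (hL1 : 1 ≤ L) : 1 ≤ P C0 k0 L := by
  unfold P
  have := pow_one_le hL1 k0
  nlinarith

theorem m_le (hL1 : 1 ≤ L) (e1 : 5 * L ^ (2 * k0 + 2) ≤ L ^ (2 * k0 + 3)) :
    (m k0 L : ℝ) + 3 ≤ L ^ (2 * k0 + 3) := by
  have hm_lt : (m k0 L : ℝ) < L ^ (2 * k0 + 2) + 1 := Nat.ceil_lt_add_one (by positivity)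
  have := pow_one_le hL1 (2 * k0 + 2)
  linarith

theorem K_le (hC : 1 ≤ C1) (hL1 : 1 ≤ L) : (K C1 L : ℝ) ≤ exp ((C1 + 1) * L) := by
  have h1 : (K C1 L : ℝ) < exp (C1 * L) + 1 := Nat.ceil_lt_add_one (exp_pos _).le
  have h2 : 1 ≤ exp (C1 * L) := Real.one_le_exp (by positivity)
  have h3 : 2 ≤ exp L := by
    have := Real.add_one_le_exp L
    linarith
  have h4 : exp ((C1 + 1) * L) = exp L * exp (C1 * L) := by
    rw [← Real.exp_add]
    congr 1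
    ring
  rw [h4]
  have h5 : 2 * exp (C1 * L) ≤ exp L * exp (C1 * L) := by gcongr
  linarith

theorem K1_le (hP1 : 1 ≤ P C0 k0 L) : (K1 C0 k0 L : ℝ) ≤ 2 * P C0 k0 L := by
  have h1 : (K1 C0 k0 L : ℝ) < P C0 k0 L + 1 := Nat.ceil_lt_add_one (by linarith)
  linarith

theorem arc_le (hC : 1 ≤ C0) (hL1 : 1 ≤ L)
    (e2 : (4 * C0 ^ 2 + 2 * C0) * L ^ (k0 + 1) ≤ L ^ (k0 + 2)) :
    ((1 : ℝ) / 2) ^ (m k0 L / K1 C0 k0 L) ≤ exp (-(P C0 k0 L * L)) := by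
  have hC0 : 0 < C0 := by linarith
  have hL0 : 0 < L := by linarith
  have hP1 : 1 ≤ P C0 k0 L := P_one hC hL1
  have hK1_ge : P C0 k0 L ≤ K1 C0 k0 L := Nat.le_ceil _
  have hK1_le := K1_le hP1
  have hK1pos : 0 < K1 C0 k0 L := by
    have : (0 : ℝ) < K1 C0 k0 L := by linarith
    exact_mod_cast this
  have hm_ge : L ^ (2 * k0 + 2) ≤ m k0 L := Nat.le_ceil _
  set n := m k0 L / K1 C0 k0 L with hn
  have h1 : m k0 L < (n + 1) * K1 C0 k0 L := by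
    have := Nat.lt_mul_of_div_lt (Nat.lt_succ_self n) hK1pos
    simpa [mul_comm] using this
  have h2 : (m k0 L : ℝ) ≤ (n + 1) * (2 * P C0 k0 L) := by
    have h3 : (m k0 L : ℝ) ≤ (n + 1) * K1 C0 k0 L := by exact_mod_cast h1.le
    refine h3.trans ?_
    gcongr
  have h7 : L ^ (k0 + 2) ≤ (n + 1) * (2 * C0) := by
    have h5 : L ^ (2 * k0 + 2) ≤ (n + 1) * (2 * (C0 * L ^ k0)) := hm_ge.trans h2
    have h6 : L ^ (2 * k0 + 2) = L ^ (k0 + 2) * L ^ k0 := by ring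
    have h8 : 0 < L ^ k0 := by positivity
    rw [h6] at h5
    have h9 : (n + 1 : ℝ) * (2 * (C0 * L ^ k0)) = ((n + 1) * (2 * C0)) * L ^ k0 := by ring
    rw [h9] at h5
    exact le_of_mul_le_mul_right h5 h8
  have h4 : 2 * (P C0 k0 L * L) ≤ n := by
    have h10 : (4 * C0 ^ 2 + 2 * C0) * L ^ (k0 + 1) ≤ (n + 1) * (2 * C0) := e2.trans h7
    have h13 := pow_one_le hL1 (k0 + 1)
    have h14 : 2 * C0 ≤ 2 * C0 * L ^ (k0 + 1) := le_mul_of_one_le_right (by positivity) h13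
    have h15 : 2 * C0 * (2 * (P C0 k0 L * L)) ≤ 2 * C0 * n := by
      have h16 : 2 * C0 * (2 * (P C0 k0 L * L)) = 4 * C0 ^ 2 * L ^ (k0 + 1) := by
        unfold P
        ring
      rw [h16]
      have h17 : (4 * C0 ^ 2 + 2 * C0) * L ^ (k0 + 1) =
          4 * C0 ^ 2 * L ^ (k0 + 1) + 2 * C0 * L ^ (k0 + 1) := by ring
      have h18 : ((n : ℝ) + 1) * (2 * C0) = 2 * C0 * n + 2 * C0 := by ring
      rw [h17, h18] at h10
      linarith
    exact le_of_mul_le_mul_left h15 (by positivity)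
  have h5 : ((1 : ℝ) / 2) ^ n = exp (-(n * log 2)) := by
    rw [Real.exp_neg, mul_comm, ← Real.rpow_def_of_pos (by norm_num : (0 : ℝ) < 2),
      Real.rpow_natCast, one_div, inv_pow]
  rw [h5]
  apply Real.exp_le_exp.2
  have h6 := Real.log_two_gt_d9
  have h7 : 0 ≤ P C0 k0 L * L := by positivity
  have h8 : (1 : ℝ) / 2 * n ≤ n * log 2 := by
    rw [mul_comm]
    gcongr
    linarith
  linarith

theorem sqrt_A2 : √(A2 C1 L) = exp ((4 * C1 + 5) * L) := by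
  unfold A2
  rw [Real.sqrt_eq_iff_mul_self_eq (by positivity) (by positivity), ← Real.exp_add]
  congr 1
  ring

theorem err_le (hC : 1 ≤ C1) (hL1 : 1 ≤ L) (h14m : 14 * ((m k0 L : ℝ) + 3) ≤ exp L) :
    (K C1 L : ℝ) * (m k0 L * (14 * (K C1 L : ℝ) ^ 3 / √(A2 C1 L))) ≤ 1 := by
  rw [sqrt_A2]
  have h1 : (K C1 L : ℝ) * (m k0 L * (14 * (K C1 L : ℝ) ^ 3 / exp ((4 * C1 + 5) * L))) =
      (14 * m k0 L) * (K C1 L : ℝ) ^ 4 / exp ((4 * C1 + 5) * L) := by ring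
  rw [h1, div_le_one (exp_pos _)]
  have hK := K_le hC hL1
  calc (14 * m k0 L : ℝ) * (K C1 L : ℝ) ^ 4 ≤ exp L * (exp ((C1 + 1) * L)) ^ 4 := by
        gcongr
        linarith
    _ = exp ((4 * C1 + 5) * L) := by
        rw [← Real.exp_nat_mul, ← Real.exp_add]
        congr 1
        push_cast
        ring

theorem Ac_one (hC : 1 ≤ C1) (hL1 : 1 ≤ L) : 1 ≤ Ac C1 k0 L := by
  unfold Ac
  apply one_le_pow₀
  have h1 : 1 ≤ A2 C1 L := Real.one_le_exp (by positivity)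
  have h2 : (0 : ℝ) ≤ m k0 L := Nat.cast_nonneg _
  nlinarith

theorem Ac_le (hC : 1 ≤ C1) (hL1 : 1 ≤ L) (h14m : 14 * ((m k0 L : ℝ) + 3) ≤ exp L)
    (hm : (m k0 L : ℝ) + 3 ≤ L ^ (2 * k0 + 3))
    (e4 : (8 * C1 + 11) * L ^ (2 * k0 + 4) ≤ L ^ (2 * k0 + 5)) :
    Ac C1 k0 L ≤ exp (L ^ (2 * k0 + 5)) := by
  have hm0 : (0 : ℝ) ≤ m k0 L := Nat.cast_nonneg _
  have hbase : 4 * ((m k0 L : ℝ) + 1) * A2 C1 L ≤ exp ((8 * C1 + 11) * L) := by
    have h1 : 4 * ((m k0 L : ℝ) + 1) ≤ exp L := by linarith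
    calc 4 * ((m k0 L : ℝ) + 1) * A2 C1 L ≤ exp L * A2 C1 L := by
          have : 0 ≤ A2 C1 L := (exp_pos _).le
          gcongr
      _ = _ := by
        unfold A2
        rw [← Real.exp_add]
        congr 1
        ring
  have h0 : 0 ≤ 4 * ((m k0 L : ℝ) + 1) * A2 C1 L := by
    have : 0 ≤ A2 C1 L := (exp_pos _).le
    positivity
  unfold Ac
  calc (4 * ((m k0 L : ℝ) + 1) * A2 C1 L) ^ (m k0 L + 3)
      ≤ (exp ((8 * C1 + 11) * L)) ^ (m k0 L + 3) := pow_le_pow_left₀ h0 hbase _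
    _ = exp ((m k0 L + 3) * ((8 * C1 + 11) * L)) := by
        rw [← Real.exp_nat_mul]
        push_cast
        ring_nf
    _ ≤ exp (L ^ (2 * k0 + 5)) := by
        apply Real.exp_le_exp.2
        calc ((m k0 L : ℝ) + 3) * ((8 * C1 + 11) * L) ≤ L ^ (2 * k0 + 3) * ((8 * C1 + 11) * L) := by
              gcongr
          _ = (8 * C1 + 11) * L ^ (2 * k0 + 4) := by ring
          _ ≤ _ := e4

theorem Ac3_le (hL2 : 2 ≤ L) (hAc : Ac C1 k0 L ≤ exp (L ^ (2 * k0 + 5))) :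
    3 * Ac C1 k0 L ≤ exp (2 * L ^ (2 * k0 + 5)) := by
  have h1 : 3 ≤ exp (L ^ (2 * k0 + 5)) := by
    have h2 := Real.add_one_le_exp (L ^ (2 * k0 + 5))
    have h3 : L ≤ L ^ (2 * k0 + 5) := le_pow (by linarith) (by omega)
    linarith
  calc 3 * Ac C1 k0 L ≤ exp (L ^ (2 * k0 + 5)) * exp (L ^ (2 * k0 + 5)) :=
        mul_le_mul h1 hAc (by unfold Ac A2; positivity) (exp_pos _).le
    _ = _ := by
      rw [← Real.exp_add]
      congr 1
      ring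

theorem H1_four (hAc1 : 1 ≤ Ac C1 k0 L) : 4 ≤ H1 C1 k0 L := by
  unfold H1
  have : 1 ≤ (2 * Ac C1 k0 L + 1) ^ (2 * m k0 L + 2) := one_le_pow₀ (by linarith)
  linarith

theorem H1_le (hL1 : 1 ≤ L) (hAc1 : 1 ≤ Ac C1 k0 L)
    (h3Ac : 3 * Ac C1 k0 L ≤ exp (2 * L ^ (2 * k0 + 5)))
    (hm : (m k0 L : ℝ) + 3 ≤ L ^ (2 * k0 + 3)) (e5 : 6 * L ^ (4 * k0 + 8) ≤ L ^ (4 * k0 + 9)) :
    H1 C1 k0 L ≤ exp (L ^ (4 * k0 + 11)) := by
  unfold H1
  have h4 : (4 : ℝ) ≤ exp 2 := by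
    have h2 := Real.add_one_le_exp (1 : ℝ)
    have h3 : exp 2 = exp 1 * exp 1 := by
      rw [← Real.exp_add]
      norm_num
    rw [h3]
    nlinarith
  have h5 : (2 * Ac C1 k0 L + 1) ≤ exp (2 * L ^ (2 * k0 + 5)) := by linarith
  have h50 : 0 ≤ 2 * Ac C1 k0 L + 1 := by linarith
  calc 4 * (2 * Ac C1 k0 L + 1) ^ (2 * m k0 L + 2)
      ≤ exp 2 * (exp (2 * L ^ (2 * k0 + 5))) ^ (2 * m k0 L + 2) :=
        mul_le_mul h4 (pow_le_pow_left₀ h50 h5 _) (by positivity) (exp_pos _).le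
    _ = exp (2 + (2 * m k0 L + 2) * (2 * L ^ (2 * k0 + 5))) := by
        rw [← Real.exp_nat_mul, ← Real.exp_add]
        push_cast
        ring_nf
    _ ≤ exp (L ^ (4 * k0 + 11)) := by
        apply Real.exp_le_exp.2
        have h6 : (2 * (m k0 L : ℝ) + 2) ≤ 2 * L ^ (2 * k0 + 3) := by linarith
        have h7 := pow_one_le hL1 (4 * k0 + 8)
        calc 2 + (2 * (m k0 L : ℝ) + 2) * (2 * L ^ (2 * k0 + 5))
            ≤ 2 * L ^ (4 * k0 + 8) + (2 * L ^ (2 * k0 + 3)) * (2 * L ^ (2 * k0 + 5)) := by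
              gcongr
              linarith
          _ = 6 * L ^ (4 * k0 + 8) := by ring
          _ ≤ L ^ (4 * k0 + 9) := e5
          _ ≤ _ := pow_le_pow_right₀ hL1 (by omega)

theorem X_le (hC : 1 ≤ C1) (hL1 : 1 ≤ L) (hAc1 : 1 ≤ Ac C1 k0 L)
    (h3Ac : 3 * Ac C1 k0 L ≤ exp (2 * L ^ (2 * k0 + 5)))
    (hm : (m k0 L : ℝ) + 3 ≤ L ^ (2 * k0 + 3))
    (e6 : (4 * C1 + 7) * L ^ (4 * k0 + 8) ≤ L ^ (4 * k0 + 9)) :
    X C1 k0 L ≤ exp (L ^ (4 * k0 + 11)) := by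
  unfold X
  rw [sqrt_A2]
  have h1 : Ac C1 k0 L + 1 ≤ 3 * Ac C1 k0 L := by linarith
  have h0 : 0 < Ac C1 k0 L := by linarith
  calc exp ((4 * C1 + 5) * L) * ((Ac C1 k0 L + 1) * (3 * Ac C1 k0 L) ^ (m k0 L + 2))
      ≤ exp ((4 * C1 + 5) * L) * ((3 * Ac C1 k0 L) * (3 * Ac C1 k0 L) ^ (m k0 L + 2)) := by
        gcongr
    _ = exp ((4 * C1 + 5) * L) * (3 * Ac C1 k0 L) ^ (m k0 L + 3) := by ring
    _ ≤ exp ((4 * C1 + 5) * L) * (exp (2 * L ^ (2 * k0 + 5))) ^ (m k0 L + 3) := by gcongr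
    _ = exp ((4 * C1 + 5) * L + (m k0 L + 3) * (2 * L ^ (2 * k0 + 5))) := by
        rw [← Real.exp_nat_mul, ← Real.exp_add]
        push_cast
        ring_nf
    _ ≤ exp (L ^ (4 * k0 + 11)) := by
        apply Real.exp_le_exp.2
        have h7 : L ≤ L ^ (4 * k0 + 8) := le_pow hL1 (by omega)
        calc (4 * C1 + 5) * L + ((m k0 L : ℝ) + 3) * (2 * L ^ (2 * k0 + 5))
            ≤ (4 * C1 + 5) * L ^ (4 * k0 + 8) + L ^ (2 * k0 + 3) * (2 * L ^ (2 * k0 + 5)) := by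
              gcongr
          _ = (4 * C1 + 7) * L ^ (4 * k0 + 8) := by ring
          _ ≤ L ^ (4 * k0 + 9) := e6
          _ ≤ _ := pow_le_pow_right₀ hL1 (by omega)

theorem del_ge (hC0 : 1 ≤ C0) (hC : 1 ≤ C1) (hL1 : 1 ≤ L)
    (h14m : 14 * ((m k0 L : ℝ) + 3) ≤ exp L)
    (hm1 : (1 : ℝ) ≤ m k0 L) : exp (-((C0 + C1 + 2) * L)) ≤ del C0 C1 k0 L := by
  have hK1r : (1 : ℝ) ≤ K C1 L := (Real.one_le_exp (by positivity)).trans (Nat.le_ceil _)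
  unfold del
  rw [le_div_iff₀ (by positivity)]
  have h1 : 4 * (m k0 L : ℝ) ≤ exp L := by linarith
  have h2 := K_le hC hL1
  calc exp (-((C0 + C1 + 2) * L)) * (4 * (m k0 L : ℝ) * K C1 L)
      ≤ exp (-((C0 + C1 + 2) * L)) * (exp L * exp ((C1 + 1) * L)) := by gcongr
    _ = _ := by
      rw [← Real.exp_add, ← Real.exp_add]
      congr 1
      ring

theorem box_le (hC0 : 1 ≤ C0) (hC : 1 ≤ C1) (hL1 : 1 ≤ L)
    (hX : X C1 k0 L ≤ exp (L ^ (4 * k0 + 11)))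
    (hPexp : P C0 k0 L ≤ exp L) (hP1 : 1 ≤ P C0 k0 L)
    (hdel : exp (-((C0 + C1 + 2) * L)) ≤ del C0 C1 k0 L)
    (e7 : (3 * C0 + C1 + 6) * L ^ (4 * k0 + 11) ≤ L ^ (4 * k0 + 12)) :
    X C1 k0 L * P C0 k0 L ≤
      del C0 C1 k0 L * (exp (-(C0 * L)) * (exp (-(C0 * L)) * H0 k0 L)) := by
  have hLk : L ≤ L ^ (4 * k0 + 11) := le_pow hL1 (by omega)
  calc X C1 k0 L * P C0 k0 L ≤ exp (L ^ (4 * k0 + 11)) * exp L :=
        mul_le_mul hX hPexp (by linarith) (exp_pos _).le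
    _ ≤ exp (-((C0 + C1 + 2) * L)) * (exp (-(C0 * L)) * (exp (-(C0 * L)) * H0 k0 L)) := by
        unfold H0
        rw [← Real.exp_add, ← Real.exp_add, ← Real.exp_add, ← Real.exp_add]
        apply Real.exp_le_exp.2
        have h1 : (3 * C0 + C1 + 3) * L ≤ (3 * C0 + C1 + 3) * L ^ (4 * k0 + 11) := by gcongr
        have h2 : 0 ≤ L ^ (4 * k0 + 11) := by positivity
        linarith
    _ ≤ _ := by
        have : 0 < H0 k0 L := exp_pos _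
        gcongr

theorem H0_le_Q (hL1 : 1 ≤ L) : H0 k0 L ≤ Q k0 L :=
  exp_le_exp.2 (pow_le_pow_right₀ hL1 (by omega))

theorem win_le (hC0 : 1 ≤ C0) (hL1 : 1 ≤ L) (hPexp : P C0 k0 L ≤ exp L) (hP1 : 1 ≤ P C0 k0 L)
    (hH14 : 4 ≤ H1 C1 k0 L) (hH1 : H1 C1 k0 L ≤ exp (L ^ (4 * k0 + 11)))
    (e8 : (2 * C0 + C1 + 9) * L ^ (4 * k0 + 12) ≤ L ^ (4 * k0 + 13)) (hC : 1 ≤ C1) :
    P C0 k0 L * exp (C0 * L) * H1 C1 k0 L * H0 k0 L ^ 2 ≤ Q k0 L := by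
  have hLk : L ≤ L ^ (4 * k0 + 12) := le_pow hL1 (by omega)
  have h0 : 0 < H0 k0 L := exp_pos _
  calc P C0 k0 L * exp (C0 * L) * H1 C1 k0 L * H0 k0 L ^ 2
      ≤ exp L * exp (C0 * L) * exp (L ^ (4 * k0 + 11)) * H0 k0 L ^ 2 := by gcongr
    _ = exp ((C0 + 1) * L + L ^ (4 * k0 + 11) + 2 * L ^ (4 * k0 + 12)) := by
        unfold H0
        rw [← Real.exp_nat_mul, ← Real.exp_add, ← Real.exp_add, ← Real.exp_add]
        congr 1
        push_cast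
        ring
    _ ≤ Q k0 L := by
        unfold Q
        apply Real.exp_le_exp.2
        have h3 : L ^ (4 * k0 + 11) ≤ L ^ (4 * k0 + 12) := pow_le_pow_right₀ hL1 (by omega)
        have h4 : 0 ≤ L ^ (4 * k0 + 12) := by positivity
        calc (C0 + 1) * L + L ^ (4 * k0 + 11) + 2 * L ^ (4 * k0 + 12)
            ≤ (C0 + 1) * L ^ (4 * k0 + 12) + L ^ (4 * k0 + 12) + 2 * L ^ (4 * k0 + 12) := by
              gcongr
          _ = (C0 + 4) * L ^ (4 * k0 + 12) := by ring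
          _ ≤ (2 * C0 + C1 + 9) * L ^ (4 * k0 + 12) :=
              mul_le_mul_of_nonneg_right (by linarith) h4
          _ ≤ _ := e8

theorem lip_le (hC0 : 1 ≤ C0) (hC : 1 ≤ C1) (hL1 : 1 ≤ L) (hPexp : P C0 k0 L ≤ exp L)
    (hP1 : 1 ≤ P C0 k0 L)
    (hH14 : 4 ≤ H1 C1 k0 L) (hH1 : H1 C1 k0 L ≤ exp (L ^ (4 * k0 + 11)))
    (e8 : (2 * C0 + C1 + 9) * L ^ (4 * k0 + 13) ≤ L ^ (4 * k0 + 14)) :
    exp (-L ^ (4 * k0 + 15)) *
      (P C0 k0 L * exp (C0 * L) * H1 C1 k0 L * Q k0 L ^ 2 * K C1 L) ≤ 1 := by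
  have hK := K_le hC hL1
  have hQ0 : 0 < Q k0 L := exp_pos _
  have h1 : P C0 k0 L * exp (C0 * L) * H1 C1 k0 L * Q k0 L ^ 2 * K C1 L ≤
      exp (L ^ (4 * k0 + 15)) := by
    calc P C0 k0 L * exp (C0 * L) * H1 C1 k0 L * Q k0 L ^ 2 * K C1 L
        ≤ exp L * exp (C0 * L) * exp (L ^ (4 * k0 + 11)) * Q k0 L ^ 2 * exp ((C1 + 1) * L) := by
          gcongr
      _ = exp ((C0 + C1 + 2) * L + L ^ (4 * k0 + 11) + 2 * L ^ (4 * k0 + 13)) := by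
          unfold Q
          rw [← Real.exp_nat_mul, ← Real.exp_add, ← Real.exp_add, ← Real.exp_add,
            ← Real.exp_add]
          congr 1
          push_cast
          ring
      _ ≤ exp (L ^ (4 * k0 + 15)) := by
          apply Real.exp_le_exp.2
          have h2 : L ≤ L ^ (4 * k0 + 13) := le_pow hL1 (by omega)
          have h3 : L ^ (4 * k0 + 11) ≤ L ^ (4 * k0 + 13) := pow_le_pow_right₀ hL1 (by omega)
          have h4 : 0 ≤ L ^ (4 * k0 + 13) := by positivity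
          calc (C0 + C1 + 2) * L + L ^ (4 * k0 + 11) + 2 * L ^ (4 * k0 + 13)
              ≤ (C0 + C1 + 2) * L ^ (4 * k0 + 13) + L ^ (4 * k0 + 13) +
                2 * L ^ (4 * k0 + 13) := by gcongr
            _ = (C0 + C1 + 5) * L ^ (4 * k0 + 13) := by ring
            _ ≤ (2 * C0 + C1 + 9) * L ^ (4 * k0 + 13) :=
                mul_le_mul_of_nonneg_right (by linarith) h4
            _ ≤ L ^ (4 * k0 + 14) := e8
            _ ≤ _ := pow_le_pow_right₀ hL1 (by omega)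
  calc exp (-L ^ (4 * k0 + 15)) * (P C0 k0 L * exp (C0 * L) * H1 C1 k0 L * Q k0 L ^ 2 * K C1 L)
      ≤ exp (-L ^ (4 * k0 + 15)) * exp (L ^ (4 * k0 + 15)) := by gcongr
    _ = 1 := by rw [← Real.exp_add, neg_add_cancel, Real.exp_zero]

theorem gain_exp_le (hC : 1 ≤ C0) {B : ℕ} (e9 : C0 * L ^ (k0 + B) ≤ exp (1 / C0 * L)) :
    P C0 k0 L * exp (-(L / C0)) * L ^ B ≤ 1 := by
  have h1 : P C0 k0 L * exp (-(L / C0)) * L ^ B = (C0 * L ^ (k0 + B)) * exp (-(L / C0)) := by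
    unfold P
    ring
  rw [h1, Real.exp_neg, ← div_eq_mul_inv, div_le_one (exp_pos _)]
  refine e9.trans (le_of_eq ?_)
  congr 1
  ring

theorem gain_log_le (hC : 1 ≤ C0) (hL2 : 2 ≤ L) (hm : (m k0 L : ℝ) + 3 ≤ L ^ (2 * k0 + 3)) {B : ℕ}
    (e10 : C0 * L ^ (k0 + (2 * k0 + 3) * k0 + B) *
      exp (-(1 / (C0 * (2 * k0 + 3)) * L / log L)) ≤ 1) :
    P C0 k0 L * log (m k0 L + 3) ^ k0 * exp (-(L / C0 / log (m k0 L + 3))) * L ^ B ≤ 1 := by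
  have hL1 : 1 ≤ L := by linarith
  have hC0 : 0 < C0 := by linarith
  have hm0 : (0 : ℝ) ≤ m k0 L := Nat.cast_nonneg _
  have hgl : log (m k0 L + 3) ≤ (2 * k0 + 3) * log L := by
    have h1 : log ((m k0 L : ℝ) + 3) ≤ log (L ^ (2 * k0 + 3)) :=
      Real.log_le_log (by positivity) hm
    rw [Real.log_pow] at h1
    push_cast at h1
    exact h1
  have hlogpos : 0 < log ((m k0 L : ℝ) + 3) := Real.log_pos (by linarith)
  have hL0' : 0 < log L := Real.log_pos (by linarith)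
  have h1 : log ((m k0 L : ℝ) + 3) ^ k0 ≤ L ^ ((2 * k0 + 3) * k0) := by
    rw [pow_mul]
    apply pow_le_pow_left₀ hlogpos.le
    have := Real.log_le_sub_one_of_pos (show (0 : ℝ) < (m k0 L : ℝ) + 3 by positivity)
    linarith
  have h2 : exp (-(L / C0 / log (m k0 L + 3))) ≤ exp (-(1 / (C0 * (2 * k0 + 3)) * L / log L)) := by
    apply Real.exp_le_exp.2
    apply neg_le_neg
    calc 1 / (C0 * (2 * k0 + 3)) * L / log L = L / C0 / ((2 * k0 + 3) * log L) := by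
          field_simp
      _ ≤ L / C0 / log (m k0 L + 3) := by gcongr
  have hP0 : 0 ≤ P C0 k0 L := by unfold P; positivity
  calc P C0 k0 L * log (m k0 L + 3) ^ k0 * exp (-(L / C0 / log (m k0 L + 3))) * L ^ B
      ≤ P C0 k0 L * L ^ ((2 * k0 + 3) * k0) *
        exp (-(1 / (C0 * (2 * k0 + 3)) * L / log L)) * L ^ B := by gcongr
    _ = C0 * L ^ (k0 + (2 * k0 + 3) * k0 + B) *
        exp (-(1 / (C0 * (2 * k0 + 3)) * L / log L)) := by
        unfold P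
        ring
    _ ≤ 1 := e10

end

/-- **All numbers of the gain theorem.** -/
theorem ok (C0 C1 : ℝ) (hC0' : 1 ≤ C0) (hC : 1 ≤ C1) (k0 B : ℕ) :
    ∀ᶠ L : ℝ in atTop, OK C0 C1 k0 B L := by
  have hC0 : 0 < C0 := by linarith
  filter_upwards [eventually_ge_atTop (3 : ℝ),
    ev_pow 5 (show 2 * k0 + 2 < 2 * k0 + 3 by omega),
    ev_pow (4 * C0 ^ 2 + 2 * C0) (show k0 + 1 < k0 + 2 by omega),
    ev_exp 14 (2 * k0 + 3) one_pos,
    ev_pow (8 * C1 + 11) (show 2 * k0 + 4 < 2 * k0 + 5 by omega),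
    ev_pow 6 (show 4 * k0 + 8 < 4 * k0 + 9 by omega),
    ev_pow (4 * C1 + 7) (show 4 * k0 + 8 < 4 * k0 + 9 by omega),
    ev_pow (3 * C0 + C1 + 6) (show 4 * k0 + 11 < 4 * k0 + 12 by omega),
    ev_pow (2 * C0 + C1 + 9) (show 4 * k0 + 12 < 4 * k0 + 13 by omega),
    ev_pow (2 * C0 + C1 + 9) (show 4 * k0 + 13 < 4 * k0 + 14 by omega),
    ev_exp C0 (k0 + B) (c := 1 / C0) (by positivity),
    ev_gain C0 (k0 + (2 * k0 + 3) * k0 + B) (c := 1 / (C0 * (2 * k0 + 3))) (by positivity),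
    ev_exp C0 k0 one_pos] with L hL3 e1 e2 e3 e4 e5 e6 e7 e8 e8' e9 e10 e11
  have hL2 : 2 ≤ L := by linarith
  have hL1 : 1 ≤ L := by linarith
  have hL0 : 0 < L := by linarith
  have hP1 : 1 ≤ P C0 k0 L := P_one hC0' hL1
  have hPexp : P C0 k0 L ≤ exp L := by
    unfold P
    simpa using e11
  have hm_ge : L ^ (2 * k0 + 2) ≤ m k0 L := Nat.le_ceil _
  have hm_le := m_le hL1 e1
  have hm1r : (1 : ℝ) ≤ m k0 L := (pow_one_le hL1 _).trans hm_ge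
  have hm1 : 1 ≤ m k0 L := by exact_mod_cast hm1r
  have hK_ge : exp (C1 * L) ≤ K C1 L := Nat.le_ceil _
  have hK1r : (1 : ℝ) ≤ K C1 L := (Real.one_le_exp (by positivity)).trans hK_ge
  have h14m : 14 * ((m k0 L : ℝ) + 3) ≤ exp L := by
    have h1 : 14 * ((m k0 L : ℝ) + 3) ≤ 14 * L ^ (2 * k0 + 3) := by linarith
    refine h1.trans ?_
    simpa using e3
  have hAc1 : 1 ≤ Ac C1 k0 L := Ac_one hC hL1
  have hAc := Ac_le hC hL1 h14m hm_le e4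
  have h3Ac := Ac3_le hL2 hAc
  have hH14 := H1_four hAc1
  have hH1 := H1_le hL1 hAc1 h3Ac hm_le e5
  have hX := X_le hC hL1 hAc1 h3Ac hm_le e6
  have hXpos : 0 < X C1 k0 L := by
    unfold X
    have h1 : 0 < Ac C1 k0 L := by linarith
    have h2 : 0 < A2 C1 L := exp_pos _
    positivity
  have hdel := del_ge hC0' hC hL1 h14m hm1r
  have hdelpos : 0 < del C0 C1 k0 L := (exp_pos _).trans_le hdel
  have hbox := box_le hC0' hC hL1 hX hPexp hP1 hdel e7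
  have hH01 : 1 ≤ H0 k0 L := Real.one_le_exp (by positivity)
  have hLk : L ≤ L ^ (4 * k0 + 11) := le_pow hL1 (by omega)
  refine ⟨hL3, hC0', hC, hP1, hPexp, hm1, hm_ge, hm_le, h14m, hK_ge, K_le hC hL1, Nat.le_ceil _,
    K1_le hP1, arc_le hC0' hL1 e2, Real.one_le_exp (by positivity), err_le hC hL1 h14m, hAc1, hAc,
    hH14, hH1, hX, hXpos, hdelpos, ?_, hH01, ?_, hH01.trans (H0_le_Q hL1), hbox, hbox.trans ?_,
    win_le hC0' hL1 hPexp hP1 hH14 hH1 e8 hC, lip_le hC0' hC hL1 hPexp hP1 hH14 hH1 e8',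
    gain_exp_le hC0' e9, gain_log_le hC0' hL2 hm_le e10⟩
  · unfold del
    have h1 : (0 : ℝ) < m k0 L := by linarith
    have h2 : (0 : ℝ) < K C1 L := by linarith
    have h3 : 2 * (m k0 L : ℝ) * K C1 L * (exp (-(C0 * L)) / (4 * m k0 L * K C1 L)) =
        exp (-(C0 * L)) / 2 := by
      field_simp
      ring
    exact h3.le
  · unfold H0
    apply Real.exp_le_exp.2
    have h1 : C0 * L ≤ C0 * L ^ (4 * k0 + 11) := by gcongr
    have h2 : 0 ≤ L ^ (4 * k0 + 11) := by positivity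
    nlinarith
  · have := H0_le_Q (k0 := k0) hL1
    gcongr

end Vale.Agent.P112.H172.Num
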