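import Vale.Agent.P112.H172.Num

/-!
# P112, chapter (G): the exponents `β`, `p` and the final gain of one level

`β = 1 - c / log (m + 3)`, `p = log (m + 3) / c`, so `2 p (1 - β) = 2` and
`(M ^ (-((2 p (1 - β) - 1) / (p - 1)))) ^ (1 - 1 / p) = M ^ (-(1 / p))`.
-/

open Filter Real Topology
open scoped ENNReal

namespace Vale.Agent.P112.H172.Num

theorem log_m3 (m : ℕ) : 1 ≤ Real.log ((m : ℝ) + 3) := by
  rw [Real.le_log_iff_exp_le (by positivity)]
  have h1 := Real.exp_one_lt_d9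
  have h2 : (0 : ℝ) ≤ m := Nat.cast_nonneg _
  linarith

noncomputable def bet (c : ℝ) (m : ℕ) : ℝ := 1 - c / Real.log ((m : ℝ) + 3)

noncomputable def pp (c : ℝ) (m : ℕ) : ℝ := Real.log ((m : ℝ) + 3) / c

section
variable {c : ℝ} {m : ℕ}

theorem bet_ge (hc : 0 < c) (hc4 : c ≤ 1 / 4) : 3 / 4 ≤ bet c m := by
  have h1 := log_m3 m
  unfold bet
  have h2 : c / Real.log ((m : ℝ) + 3) ≤ 1 / 4 := by
    rw [div_le_iff₀ (by linarith)]
    nlinarith
  linarith

theorem bet_le (hc : 0 < c) : bet c m ≤ 1 := by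
  have h1 := log_m3 m
  unfold bet
  have h2 : 0 ≤ c / Real.log ((m : ℝ) + 3) := by positivity
  linarith

theorem pp_ge (hc : 0 < c) (hc4 : c ≤ 1 / 4) : 4 ≤ pp c m := by
  have h1 := log_m3 m
  unfold pp
  rw [le_div_iff₀ hc]
  linarith

theorem two_pp (hc : 0 < c) : 2 * pp c m * (1 - bet c m) = 2 := by
  have h1 : Real.log ((m : ℝ) + 3) ≠ 0 := by
    have := log_m3 m
    linarith
  unfold pp bet
  field_simp
  ring

theorem exp_eq (hc : 0 < c) (hc4 : c ≤ 1 / 4) :
    (2 * pp c m * (1 - bet c m) - 1) / (pp c m - 1) * (1 - 1 / pp c m) = 1 / pp c m := by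
  have h1 := pp_ge (m := m) hc hc4
  have h2 : pp c m - 1 ≠ 0 := by linarith
  have h3 : pp c m ≠ 0 := by linarith
  rw [two_pp hc]
  field_simp
  ring

/-- The gain of the Hölder step of `use_Lp`. -/
theorem M0_pow (hc : 0 < c) (hc4 : c ≤ 1 / 4) {x : ℝ} (M0 Y : ℝ≥0∞)
    (h0 : ENNReal.ofReal (exp x) ≤ M0) :
    (M0 ^ (-((2 * pp c m * (1 - bet c m) - 1) / (pp c m - 1))) * Y) ^ (1 - 1 / pp c m) ≤
      ENNReal.ofReal (exp (-(c * x / Real.log ((m : ℝ) + 3)))) * Y ^ (1 - 1 / pp c m) := by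
  have hp := pp_ge (m := m) hc hc4
  have hp1 : 0 ≤ 1 - 1 / pp c m := by
    have : 1 / pp c m ≤ 1 := by
      rw [div_le_one (by linarith)]
      linarith
    linarith
  rw [ENNReal.mul_rpow_of_nonneg _ _ hp1, ← ENNReal.rpow_mul, neg_mul, exp_eq hc hc4]
  gcongr
  have h1 : M0 ^ (-(1 / pp c m)) ≤ ENNReal.ofReal (exp x) ^ (-(1 / pp c m)) := by
    rw [ENNReal.rpow_neg, ENNReal.rpow_neg]
    apply ENNReal.inv_le_inv.2
    exact ENNReal.rpow_le_rpow h0 (by positivity)
  refine h1.trans (le_of_eq ?_)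
  rw [ENNReal.ofReal_rpow_of_pos (exp_pos _), ← Real.exp_mul]
  congr 2
  unfold pp
  have h2 : Real.log ((m : ℝ) + 3) ≠ 0 := by
    have := log_m3 m
    linarith
  field_simp

/-- The second factor of `use_Lp`: everything is compared with one number `Z`. -/
theorem lev_final (hc : 0 < c) (hc4 : c ≤ 1 / 4) {x : ℝ} (M0 G N Z q : ℝ≥0∞)
    (h0 : ENNReal.ofReal (exp x) ≤ M0) (hG : G ≤ q ^ pp c m * Z) (hN : N ≤ Z) :
    G ^ (1 / pp c m) *
      (M0 ^ (-((2 * pp c m * (1 - bet c m) - 1) / (pp c m - 1))) * N) ^ (1 - 1 / pp c m) ≤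
      q * (ENNReal.ofReal (exp (-(c * x / Real.log ((m : ℝ) + 3)))) * Z) := by
  have hp := pp_ge (m := m) hc hc4
  have hp0 : 0 < pp c m := by linarith
  have hp1 : 0 ≤ 1 - 1 / pp c m := by
    have : 1 / pp c m ≤ 1 := by
      rw [div_le_one (by linarith)]
      linarith
    linarith
  have h1 : G ^ (1 / pp c m) ≤ q * Z ^ (1 / pp c m) := by
    calc G ^ (1 / pp c m) ≤ (q ^ pp c m * Z) ^ (1 / pp c m) :=
          ENNReal.rpow_le_rpow hG (by positivity)
      _ = q * Z ^ (1 / pp c m) := by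
          rw [ENNReal.mul_rpow_of_nonneg _ _ (by positivity), ← ENNReal.rpow_mul,
            mul_one_div_cancel hp0.ne', ENNReal.rpow_one]
  have h2 := (M0_pow (m := m) hc hc4 M0 N h0).trans
    (mul_le_mul_right (ENNReal.rpow_le_rpow hN hp1) _)
  calc _ ≤ (q * Z ^ (1 / pp c m)) *
        (ENNReal.ofReal (exp (-(c * x / Real.log ((m : ℝ) + 3)))) * Z ^ (1 - 1 / pp c m)) :=
        mul_le_mul' h1 h2
    _ = q * (ENNReal.ofReal (exp (-(c * x / Real.log ((m : ℝ) + 3)))) *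
        (Z ^ (1 / pp c m) * Z ^ (1 - 1 / pp c m))) := by ring
    _ = _ := by
        congr 2
        by_cases hZ0 : Z = 0
        · rw [hZ0, ENNReal.zero_rpow_of_pos (by positivity), zero_mul]
        by_cases hZ : Z = ∞
        · rw [hZ, ENNReal.top_rpow_of_pos (by positivity)]
          have h3 : 0 < 1 - 1 / pp c m := by
            have : 1 / pp c m < 1 := by
              rw [div_lt_one (by linarith)]
              linarith
            linarith
          rw [ENNReal.top_rpow_of_pos h3]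
          simp
        · rw [← ENNReal.rpow_add _ _ hZ0 hZ]
          have : 1 / pp c m + (1 - 1 / pp c m) = 1 := by ring
          rw [this, ENNReal.rpow_one]

end

/-- `c x = L / C0` at least: the exponential of `lev_final` is controlled by `gain_log`. -/
theorem gain_of {C0 C1 L : ℝ} {k0 B : ℕ} (h : OK C0 C1 k0 B L) {c x : ℝ} (hx : L / C0 ≤ c * x) :
    P C0 k0 L * Real.log (m k0 L + 3) ^ k0 *
      exp (-(c * x / Real.log ((m k0 L : ℝ) + 3))) * L ^ B ≤ 1 := by
  have h1 := log_m3 (m k0 L)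
  have h2 := h.gain_log
  have hP : 0 ≤ P C0 k0 L := by linarith [h.P1]
  have hL : 0 ≤ L := by linarith [h.L3]
  refine le_trans ?_ h2
  have h3 : exp (-(c * x / Real.log ((m k0 L : ℝ) + 3))) ≤
      exp (-(L / C0 / Real.log ((m k0 L : ℝ) + 3))) := by
    apply exp_le_exp.2
    apply neg_le_neg
    gcongr
  gcongr

end Vale.Agent.P112.H172.Num
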