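import Vale.Agent.P112.H172.VNode

/-!
P112, block [VNODE]: final form, gauge form, low frequencies, perturbations.
-/

namespace Vale.Agent.P112.H172

open Finset MeasureTheory
open scoped ENNReal FourierTransform

/-- the error term of [VNODE] (relative to `X`) -/
noncomputable def verr {ι : Type*} [Fintype ι] (g : ι → ℝ → ℂ) (ρ X θ0 : ℝ) : ℝ≥0∞ :=
  Fintype.card ι * (ENNReal.ofReal (1 / (Real.pi * θ0 * ρ * X)) ^ (1 / 2 : ℝ) *
    ∑ i, (∫⁻ v, ‖g i v‖ₑ ^ 2) + ∑ i, ∫⁻ θ in Set.Ioo (-θ0) θ0, ‖𝓕 (g i) θ‖ₑ ^ 2)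

theorem log_card_pos (n : ℕ) : 1 / 2 ≤ Real.log (n + 2) := by
  have h1 : Real.log 2 ≤ Real.log ((n : ℝ) + 2) :=
    Real.log_le_log (by norm_num) (by linarith [(Nat.cast_nonneg n : (0 : ℝ) ≤ n)])
  linarith [Real.log_two_gt_d9]

/-- **[VNODE]** -/
theorem vnode : ∃ c : ℝ, 0 < c ∧ c ≤ 1 / 4 ∧ ∀ (ι : Type) [Fintype ι] (g : ι → ℝ → ℂ)
    (s : ι → ℝ) (ρ X θ0 p : ℝ), (∀ i, Prof (g i)) → 0 < ρ → 0 < X → 0 < θ0 →
    (∀ i j, i ≠ j → 3 * ρ ≤ |s i - s j|) → 4 / 3 ≤ p →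
    p ≤ 4 / 3 + c / Real.log (Fintype.card ι + 2) →
    ∫⁻ t in Set.Ioc 0 X, (∫⁻ v, ‖mov g s t v‖ₑ ^ 2) ^ 2 ≤
      ENNReal.ofReal X * ((∑ i, (∫⁻ v, ‖g i v‖ₑ ^ 2) ^ (p / 2)) ^ (2 / p) +
        verr g ρ X θ0) ^ 2 := by
  obtain ⟨c0, hc0, hY⟩ := H22.improved_young
  refine ⟨min c0 (1 / 4), lt_min hc0 (by norm_num), min_le_right _ _, ?_⟩
  intro ι _ g s ρ X θ0 p hg hρ hX hθ hsep hp hp'
  have hlog := log_card_pos (Fintype.card ι)
  have hlog0 : 0 < Real.log (Fintype.card ι + 2) := by linarith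
  have h1 : p ≤ 4 / 3 + c0 / Real.log (Fintype.card ι + 2) := by
    refine hp'.trans ?_
    gcongr
    exact min_le_left _ _
  have h2 : p ≤ 2 := by
    have : min c0 (1 / 4) / Real.log (Fintype.card ι + 2) ≤ (1 / 4) / (1 / 2) := by
      gcongr
      exact min_le_right _ _
    linarith
  exact vnode_core (hY ι) hg s hρ hX hθ hsep hp h1 h2

/-- Hölder against gauges, in `ℝ≥0∞`. -/
theorem gauge_holder {ι : Type*} [Fintype ι] (A : ι → ℝ≥0∞) (hA : ∀ i, A i ≠ ∞) (M : ι → ℝ)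
    (hM : ∀ i, 0 < M i) {β p : ℝ} (hβ : 1 / 2 ≤ β) (hβ1 : β ≤ 1) (hp : p = 4 / (1 + 2 * β)) :
    ((∑ i, A i ^ (p / 2)) ^ (2 / p)) ^ 2 ≤
      ENNReal.ofReal ((∑ i, M i ^ (1 / β)) ^ (2 * β)) *
        ∑ i, A i ^ 2 * ENNReal.ofReal ((M i ^ 2)⁻¹) := by
  have hp0 : 0 < p := by rw [hp]; positivity
  have h := H22.holder_weights (fun i => (A i).toReal ^ (1 / 2 : ℝ)) (fun i => M i ^ (1 / β))
    (fun i => by positivity) (fun i => by have := hM i; positivity)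
    (fun i h => by
      have := hM i
      have h2 : 0 < M i ^ (1 / β) := by positivity
      exact absurd h h2.ne') (ε := 2 - 2 * β) (p := p) (by linarith) (by linarith)
    (by rw [hp]; congr 1; ring)
  have hAi : ∀ i, A i = ENNReal.ofReal (A i).toReal := fun i => (ENNReal.ofReal_toReal (hA i)).symm
  have e1 : ∀ i, A i ^ (p / 2) = ENNReal.ofReal (((A i).toReal ^ (1 / 2 : ℝ)) ^ p) := by
    intro i
    rw [← Real.rpow_mul ENNReal.toReal_nonneg, ← ENNReal.ofReal_rpow_of_nonneg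
      ENNReal.toReal_nonneg (by positivity), ENNReal.ofReal_toReal (hA i)]
    congr 1
    ring
  have e2 : ((∑ i, A i ^ (p / 2)) ^ (2 / p)) ^ 2 =
      ENNReal.ofReal ((∑ i, ((A i).toReal ^ (1 / 2 : ℝ)) ^ p) ^ (4 / p)) := by
    simp only [e1]
    rw [← ENNReal.ofReal_sum_of_nonneg fun i _ => by positivity, ← ENNReal.rpow_two,
      ← ENNReal.rpow_mul, ENNReal.ofReal_rpow_of_nonneg
        (Finset.sum_nonneg fun i _ => by positivity) (by positivity)]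
    congr 2
    ring
  have e3 : ENNReal.ofReal ((∑ i, M i ^ (1 / β)) ^ (2 * β)) *
        ∑ i, A i ^ 2 * ENNReal.ofReal ((M i ^ 2)⁻¹) =
      ENNReal.ofReal ((∑ i, M i ^ (1 / β)) ^ (2 - (2 - 2 * β)) *
        ∑ i, ((A i).toReal ^ (1 / 2 : ℝ)) ^ 4 / (M i ^ (1 / β)) ^ (2 - (2 - 2 * β))) := by
    have hS : 0 ≤ ∑ i, M i ^ (1 / β) := Finset.sum_nonneg fun i _ => by have := hM i; positivity
    rw [ENNReal.ofReal_mul (by positivity)]
    congr 1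
    · congr 2
      ring
    · rw [ENNReal.ofReal_sum_of_nonneg]
      · refine Finset.sum_congr rfl fun i _ => ?_
        have hMi := hM i
        have q1 : ((A i).toReal ^ (1 / 2 : ℝ)) ^ 4 = (A i).toReal ^ 2 := by
          rw [← Real.rpow_natCast, ← Real.rpow_mul ENNReal.toReal_nonneg, ← Real.rpow_natCast]
          congr 1
          norm_num
        have q2 : (M i ^ (1 / β)) ^ (2 - (2 - 2 * β)) = M i ^ 2 := by
          rw [← Real.rpow_mul hMi.le, ← Real.rpow_natCast]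
          congr 1
          have : β ≠ 0 := by linarith
          field_simp
          push_cast
          ring
        rw [q1, q2, div_eq_mul_inv, ENNReal.ofReal_mul (by positivity),
          ENNReal.ofReal_pow ENNReal.toReal_nonneg, ENNReal.ofReal_toReal (hA i)]
      · intro i _
        have := hM i
        positivity
  rw [e2, e3]
  exact ENNReal.ofReal_le_ofReal h

theorem sq_add_le (x y : ℝ≥0∞) {e : ℝ} (he : 0 < e) :
    (x + y) ^ 2 ≤ ENNReal.ofReal (1 + e) * x ^ 2 + ENNReal.ofReal (1 + 1 / e) * y ^ 2 := by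
  have h2 : 2 * (x * y) ≤ ENNReal.ofReal e * x ^ 2 + ENNReal.ofReal (1 / e) * y ^ 2 := by
    by_cases hx : x = ∞
    · by_cases hy : y = 0
      · simp [hy]
      · rw [hx]
        have : ENNReal.ofReal e * (∞ : ℝ≥0∞) ^ 2 = ∞ := by
          rw [ENNReal.top_pow (by norm_num), ENNReal.mul_top]
          simpa using he
        rw [this]
        simp
    by_cases hy : y = ∞
    · rw [hy]
      have : ENNReal.ofReal (1 / e) * (∞ : ℝ≥0∞) ^ 2 = ∞ := by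
        rw [ENNReal.top_pow (by norm_num), ENNReal.mul_top]
        simpa using he
      rw [this]
      simp
    lift x to NNReal using hx
    lift y to NNReal using hy
    have hr : 2 * ((x : ℝ) * y) ≤ e * (x : ℝ) ^ 2 + 1 / e * (y : ℝ) ^ 2 := by
      have := sq_nonneg (Real.sqrt e * x - Real.sqrt (1 / e) * y)
      have h1 := Real.sq_sqrt he.le
      have h2 := Real.sq_sqrt (show (0 : ℝ) ≤ 1 / e by positivity)
      have h3 : Real.sqrt e * Real.sqrt (1 / e) = 1 := by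
        rw [← Real.sqrt_mul he.le]
        field_simp
        simp
      have h4 : (Real.sqrt e * x - Real.sqrt (1 / e) * y) ^ 2 =
          Real.sqrt e ^ 2 * (x : ℝ) ^ 2 - 2 * (Real.sqrt e * Real.sqrt (1 / e)) * ((x : ℝ) * y)
            + Real.sqrt (1 / e) ^ 2 * (y : ℝ) ^ 2 := by ring
      rw [h4, h1, h2, h3] at this
      linarith
    have h4 := ENNReal.ofReal_le_ofReal hr
    rw [ENNReal.ofReal_add (by positivity) (by positivity)] at h4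
    rw [ENNReal.ofReal_mul (by norm_num), ENNReal.ofReal_mul (by positivity),
      ENNReal.ofReal_mul (by positivity), ENNReal.ofReal_mul (by positivity),
      ENNReal.ofReal_pow (by positivity), ENNReal.ofReal_pow (by positivity)] at h4
    simpa using h4
  have e1 : ENNReal.ofReal (1 + e) = 1 + ENNReal.ofReal e := by
    rw [ENNReal.ofReal_add (by norm_num) he.le, ENNReal.ofReal_one]
  have e2 : ENNReal.ofReal (1 + 1 / e) = 1 + ENNReal.ofReal (1 / e) := by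
    rw [ENNReal.ofReal_add (by norm_num) (by positivity), ENNReal.ofReal_one]
  rw [e1, e2]
  calc (x + y) ^ 2 = x ^ 2 + y ^ 2 + 2 * (x * y) := by ring
    _ ≤ x ^ 2 + y ^ 2 + (ENNReal.ofReal e * x ^ 2 + ENNReal.ofReal (1 / e) * y ^ 2) := by gcongr
    _ = _ := by ring

/-- **(C1)**: [VNODE] in gauge form. -/
theorem vnode_gauge : ∃ c : ℝ, 0 < c ∧ c ≤ 1 / 8 ∧ ∀ (ι : Type) [Fintype ι] (g : ι → ℝ → ℂ)
    (s M : ι → ℝ) (ρ X θ0 β e : ℝ), (∀ i, Prof (g i)) → 0 < ρ → 0 < X → 0 < θ0 →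
    (∀ i j, i ≠ j → 3 * ρ ≤ |s i - s j|) → (∀ i, 0 < M i) →
    1 - c / Real.log (Fintype.card ι + 2) ≤ β → β ≤ 1 → 0 < e →
    ∫⁻ t in Set.Ioc 0 X, (∫⁻ v, ‖mov g s t v‖ₑ ^ 2) ^ 2 ≤
      ENNReal.ofReal X * (ENNReal.ofReal (1 + e) *
        (ENNReal.ofReal ((∑ i, M i ^ (1 / β)) ^ (2 * β)) *
          ∑ i, (∫⁻ v, ‖g i v‖ₑ ^ 2) ^ 2 * ENNReal.ofReal ((M i ^ 2)⁻¹)) +
        ENNReal.ofReal (1 + 1 / e) * verr g ρ X θ0 ^ 2) := by
  obtain ⟨c, hc, hc4, hV⟩ := vnode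
  refine ⟨c / 2, by positivity, by linarith, ?_⟩
  intro ι _ g s M ρ X θ0 β e hg hρ hX hθ hsep hM hβ hβ1 he
  have hlog := log_card_pos (Fintype.card ι)
  have hlog0 : 0 < Real.log (Fintype.card ι + 2) := by linarith
  have hsmall : c / 2 / Real.log (Fintype.card ι + 2) ≤ 1 / 4 := by
    rw [div_le_iff₀ hlog0]
    linarith
  have hβ2 : 3 / 4 ≤ β := by linarith
  have hp : 4 / 3 ≤ 4 / (1 + 2 * β) := by
    rw [div_le_div_iff₀ (by norm_num) (by linarith)]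
    linarith
  have hp' : 4 / (1 + 2 * β) ≤ 4 / 3 + c / Real.log (Fintype.card ι + 2) := by
    have h1 : c / Real.log (Fintype.card ι + 2) = 2 * (c / 2 / Real.log (Fintype.card ι + 2)) := by
      ring
    rw [h1]
    set d := c / 2 / Real.log (Fintype.card ι + 2) with hd
    have h2 : 1 - β ≤ d := by linarith
    rw [div_le_iff₀ (by linarith)]
    nlinarith
  refine (hV ι g s ρ X θ0 _ hg hρ hX hθ hsep hp hp').trans ?_
  gcongr
  refine (sq_add_le _ _ he).trans ?_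
  gcongr
  refine gauge_holder _ (fun i => ?_) M hM (by linarith) hβ1 rfl
  have h2 := (hg i).i2
  have h3 := h2.eLpNorm_lt_top
  rw [eLpNorm_lt_top_iff_lintegral_rpow_enorm_lt_top (by norm_num) (by norm_num)] at h3
  simp only [ENNReal.toReal_ofNat, ENNReal.rpow_two] at h3
  exact h3.ne

/-- **(C2)**: low frequencies of a derivative plus a remainder. -/
theorem low_freq {Ψ r : ℝ → ℂ} (hΨ : Prof Ψ) (hd : Differentiable ℝ Ψ) (hd' : Prof (deriv Ψ))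
    (hr : Prof r) {θ0 : ℝ} (hθ : 0 < θ0) :
    ∫⁻ θ in Set.Ioo (-θ0) θ0, ‖𝓕 (fun v => deriv Ψ v + r v) θ‖ₑ ^ 2 ≤
      2 * ENNReal.ofReal ((2 * Real.pi * θ0) ^ 2) * (∫⁻ v, ‖Ψ v‖ₑ ^ 2) +
        2 * (∫⁻ v, ‖r v‖ₑ ^ 2) := by
  have h1 : ∀ θ, 𝓕 (fun v => deriv Ψ v + r v) θ = (2 * Real.pi * Complex.I * θ) * 𝓕 Ψ θ + 𝓕 r θ := by
    intro θ
    have h2 := congrFun (Real.fourier_deriv hΨ.i1 hd hd'.i1) θ
    simp only [smul_eq_mul] at h2
    rw [← h2, Real.fourier_real_eq_integral_exp_smul, Real.fourier_real_eq_integral_exp_smul,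
      Real.fourier_real_eq_integral_exp_smul, ← integral_add]
    · refine integral_congr_ae (Filter.Eventually.of_forall fun v => ?_)
      simp only [smul_eq_mul]
      ring
    · refine hd'.i1.bdd_mul (c := 1) (by fun_prop) ?_
      refine Filter.Eventually.of_forall fun v => ?_
      rw [Complex.norm_exp_ofReal_mul_I]
    · refine hr.i1.bdd_mul (c := 1) (by fun_prop) ?_
      refine Filter.Eventually.of_forall fun v => ?_
      rw [Complex.norm_exp_ofReal_mul_I]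
  have h2 : ∀ θ ∈ Set.Ioo (-θ0) θ0, ‖𝓕 (fun v => deriv Ψ v + r v) θ‖ₑ ^ 2 ≤
      2 * ENNReal.ofReal ((2 * Real.pi * θ0) ^ 2) * ‖𝓕 Ψ θ‖ₑ ^ 2 + 2 * ‖𝓕 r θ‖ₑ ^ 2 := by
    intro θ hm
    rw [h1]
    have h3 : ‖(2 * Real.pi * Complex.I * θ) * 𝓕 Ψ θ‖ₑ ≤ ENNReal.ofReal (2 * Real.pi * θ0) * ‖𝓕 Ψ θ‖ₑ := by
      rw [enorm_mul]
      gcongr
      rw [← ofReal_norm]
      apply ENNReal.ofReal_le_ofReal
      simp only [norm_mul, Complex.norm_ofNat, Complex.norm_real, Complex.norm_I, mul_one]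
      have hθ' : ‖θ‖ ≤ θ0 := by
        rw [Real.norm_eq_abs, abs_le]
        exact ⟨hm.1.le, hm.2.le⟩
      rw [Real.norm_of_nonneg Real.pi_pos.le]
      gcongr
    have h4 : ∀ x y : ℝ≥0∞, (x + y) ^ 2 ≤ 2 * x ^ 2 + 2 * y ^ 2 := by
      intro x y
      have := sq_add_le x y (e := 1) one_pos
      norm_num at this
      simpa using this
    calc ‖2 * Real.pi * Complex.I * θ * 𝓕 Ψ θ + 𝓕 r θ‖ₑ ^ 2
        ≤ (‖2 * Real.pi * Complex.I * θ * 𝓕 Ψ θ‖ₑ + ‖𝓕 r θ‖ₑ) ^ 2 := by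
          gcongr
          exact enorm_add_le _ _
      _ ≤ 2 * ‖2 * Real.pi * Complex.I * θ * 𝓕 Ψ θ‖ₑ ^ 2 + 2 * ‖𝓕 r θ‖ₑ ^ 2 := h4 _ _
      _ ≤ 2 * (ENNReal.ofReal (2 * Real.pi * θ0) * ‖𝓕 Ψ θ‖ₑ) ^ 2 + 2 * ‖𝓕 r θ‖ₑ ^ 2 := by gcongr
      _ = _ := by
          rw [mul_pow, ← ENNReal.ofReal_pow (by positivity), ← mul_assoc]
  have mΨ : Measurable fun θ => ‖𝓕 Ψ θ‖ₑ ^ 2 :=
    ((continuous_fourier_prof hΨ.i1).measurable.enorm).pow_const 2
  have mr : Measurable fun θ => ‖𝓕 r θ‖ₑ ^ 2 :=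
    ((continuous_fourier_prof hr.i1).measurable.enorm).pow_const 2
  have mm : Measurable fun θ => 2 * ENNReal.ofReal ((2 * Real.pi * θ0) ^ 2) * ‖𝓕 Ψ θ‖ₑ ^ 2 +
      2 * ‖𝓕 r θ‖ₑ ^ 2 := (mΨ.const_mul _).add (mr.const_mul _)
  refine (setLIntegral_mono mm h2).trans ?_
  rw [lintegral_add_right _ (mr.const_mul _), lintegral_const_mul _ mΨ, lintegral_const_mul _ mr]
  have q1 : ∫⁻ θ in Set.Ioo (-θ0) θ0, ‖𝓕 Ψ θ‖ₑ ^ 2 ≤ ∫⁻ v, ‖Ψ v‖ₑ ^ 2 :=
    (setLIntegral_le_lintegral _ _).trans (HL.lintegral_enorm_sq_fourier _ hΨ.i1 hΨ.i2).le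
  have q2 : ∫⁻ θ in Set.Ioo (-θ0) θ0, ‖𝓕 r θ‖ₑ ^ 2 ≤ ∫⁻ v, ‖r v‖ₑ ^ 2 :=
    (setLIntegral_le_lintegral _ _).trans (HL.lintegral_enorm_sq_fourier _ hr.i1 hr.i2).le
  gcongr

/-- **(C3)**: perturbation, pointwise in `t`. -/
theorem pert {F E : ℝ → ℂ} (hF : Measurable F) (hE : Measurable E) {e : ℝ} (he : 0 < e) :
    (∫⁻ v, ‖F v + E v‖ₑ ^ 2) ^ 2 ≤ ENNReal.ofReal ((1 + e) ^ 3) * (∫⁻ v, ‖F v‖ₑ ^ 2) ^ 2 +
      ENNReal.ofReal ((1 + 1 / e) ^ 3) * (∫⁻ v, ‖E v‖ₑ ^ 2) ^ 2 := by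
  have mF : Measurable fun v => ‖F v‖ₑ ^ 2 := hF.enorm.pow_const 2
  have mE : Measurable fun v => ‖E v‖ₑ ^ 2 := hE.enorm.pow_const 2
  have h1 : ∫⁻ v, ‖F v + E v‖ₑ ^ 2 ≤ ENNReal.ofReal (1 + e) * (∫⁻ v, ‖F v‖ₑ ^ 2) +
      ENNReal.ofReal (1 + 1 / e) * (∫⁻ v, ‖E v‖ₑ ^ 2) := by
    rw [← lintegral_const_mul _ mF, ← lintegral_const_mul _ mE,
      ← lintegral_add_left (mF.const_mul _)]
    refine lintegral_mono fun v => ?_
    refine le_trans ?_ (sq_add_le _ _ he)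
    gcongr
    exact enorm_add_le _ _
  refine (pow_le_pow_left' h1 2).trans ?_
  refine (sq_add_le _ _ he).trans (le_of_eq ?_)
  rw [mul_pow, mul_pow, ← mul_assoc, ← mul_assoc, ← ENNReal.ofReal_pow (by positivity),
    ← ENNReal.ofReal_pow (by positivity), ← ENNReal.ofReal_mul (by positivity),
    ← ENNReal.ofReal_mul (by positivity)]
  congr 3 <;> ring

end Vale.Agent.P112.H172
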