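import Vale.Agent.P112.H172.Avg4
import Vale.Agent.P112.H172.Mink
import Vale.Agent.P112.H22.Young
import Vale.Agent.P112.H967.L2

/-!
P112, block [VNODE]: the vector-valued node inequality on one segment.
-/

namespace Vale.Agent.P112.H172

open Finset MeasureTheory
open scoped ENNReal FourierTransform

/-- a superposition of moving profiles -/
noncomputable def mov {ι : Type*} [Fintype ι] (g : ι → ℝ → ℂ) (s : ι → ℝ) (t v : ℝ) : ℂ :=
  ∑ i, g i (v - t * s i)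

/-- the regularity we need of a profile -/
structure Prof (g : ℝ → ℂ) : Prop where
  meas : Measurable g
  i1 : Integrable g
  i2 : MemLp g 2

theorem Prof.shift {g : ℝ → ℂ} (h : Prof g) (a : ℝ) : Prof fun v => g (v - a) where
  meas := h.meas.comp (measurable_id.sub_const a)
  i1 := h.i1.comp_sub_right a
  i2 := h.i2.comp_measurePreserving (measurePreserving_sub_right volume a)

theorem Prof.sum {ι : Type*} (S : Finset ι) {g : ι → ℝ → ℂ} (h : ∀ i, Prof (g i)) :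
    Prof fun v => ∑ i ∈ S, g i v where
  meas := Finset.measurable_sum S fun i _ => (h i).meas
  i1 := integrable_finsetSum S fun i _ => (h i).i1
  i2 := memLp_finsetSum S fun i _ => (h i).i2

theorem fourier_shift (g : ℝ → ℂ) (a θ : ℝ) :
    𝓕 (fun v => g (v - a)) θ = Complex.exp (Complex.I * ((-2 * Real.pi * θ * a : ℝ) : ℂ)) * 𝓕 g θ := by
  rw [Real.fourier_real_eq_integral_exp_smul, Real.fourier_real_eq_integral_exp_smul,
    ← integral_const_mul]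
  have h := integral_sub_right_eq_self (μ := (volume : Measure ℝ))
    (fun v : ℝ => Complex.exp (Complex.I * ((-2 * Real.pi * θ * a : ℝ) : ℂ)) *
      (Complex.exp (↑(-2 * Real.pi * v * θ) * Complex.I) • g v)) a
  rw [← h]
  refine integral_congr_ae (Filter.Eventually.of_forall fun v => ?_)
  simp only [smul_eq_mul]
  rw [← mul_assoc, ← Complex.exp_add]
  congr 2
  push_cast
  ring

variable {ι : Type*} [Fintype ι]

theorem fourier_mov {g : ι → ℝ → ℂ} (hg : ∀ i, Prof (g i)) (s : ι → ℝ) (t θ : ℝ) :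
    𝓕 (mov g s t) θ = tsum4 (fun i => 𝓕 (g i) θ) s (-2 * Real.pi * θ) t := by
  have h1 : 𝓕 (mov g s t) θ = ∑ i, 𝓕 (fun v => g i (v - t * s i)) θ := by
    rw [Real.fourier_real_eq_integral_exp_smul]
    simp_rw [Real.fourier_real_eq_integral_exp_smul]
    rw [← integral_finsetSum]
    · refine integral_congr_ae (Filter.Eventually.of_forall fun v => ?_)
      simp only [mov, smul_eq_mul, Finset.mul_sum]
    · intro i _
      have hi := ((hg i).shift (t * s i)).i1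
      refine hi.bdd_mul (c := 1) (by fun_prop) ?_
      refine Filter.Eventually.of_forall fun v => ?_
      rw [Complex.norm_exp_ofReal_mul_I]
  rw [h1]
  unfold tsum4
  refine Finset.sum_congr rfl fun i _ => ?_
  rw [fourier_shift, mul_comm]
  congr 4
  ring

theorem plancherel_mov {g : ι → ℝ → ℂ} (hg : ∀ i, Prof (g i)) (s : ι → ℝ) (t : ℝ) :
    ∫⁻ v, ‖mov g s t v‖ₑ ^ 2 =
      ∫⁻ θ, ‖tsum4 (fun i => 𝓕 (g i) θ) s (-2 * Real.pi * θ) t‖ₑ ^ 2 := by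
  have h := Prof.sum (Finset.univ : Finset ι) fun i => (hg i).shift (t * s i)
  have h2 : Prof (mov g s t) := h
  rw [← HL.lintegral_enorm_sq_fourier _ h2.i1 h2.i2]
  refine lintegral_congr fun θ => ?_
  rw [fourier_mov hg]

theorem continuous_fourier_prof {g : ℝ → ℂ} (hg : Integrable g) : Continuous (𝓕 g) :=
  VectorFourier.fourierIntegral_continuous
    Real.continuous_fourierChar (L := innerₗ ℝ) (μ := volume) (by
      exact continuous_inner) hg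

theorem norm_exp_I (x : ℝ) : ‖Complex.exp (Complex.I * (x : ℂ))‖ = 1 := by
  rw [mul_comm, Complex.norm_exp_ofReal_mul_I]

theorem norm_tsum4_le (a : ι → ℂ) (s : ι → ℝ) (ω t : ℝ) : ‖tsum4 a s ω t‖ ≤ ∑ i, ‖a i‖ := by
  unfold tsum4
  refine (norm_sum_le _ _).trans (le_of_eq ?_)
  refine Finset.sum_congr rfl fun i _ => ?_
  rw [norm_mul, norm_exp_I, mul_one]

theorem ofReal_sum_rpow (a : ι → ℂ) {p : ℝ} (hp : 0 < p) :
    ENNReal.ofReal ((∑ i, ‖a i‖ ^ p) ^ (2 / p)) = (∑ i, ‖a i‖ₑ ^ p) ^ (2 / p) := by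
  rw [← ENNReal.ofReal_rpow_of_nonneg (Finset.sum_nonneg fun i _ => by positivity) (by positivity),
    ENNReal.ofReal_sum_of_nonneg fun i _ => by positivity]
  congr 1
  refine Finset.sum_congr rfl fun i _ => ?_
  rw [← ENNReal.ofReal_rpow_of_nonneg (norm_nonneg _) hp.le, ofReal_norm]

theorem ofReal_card_sum (a : ι → ℂ) :
    ENNReal.ofReal (Fintype.card ι * ∑ i, ‖a i‖ ^ 2) = Fintype.card ι * ∑ i, ‖a i‖ₑ ^ 2 := by
  rw [ENNReal.ofReal_mul (by positivity), ENNReal.ofReal_natCast,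
    ENNReal.ofReal_sum_of_nonneg fun i _ => by positivity]
  congr 1
  refine Finset.sum_congr rfl fun i _ => ?_
  rw [ENNReal.ofReal_pow (norm_nonneg _), ofReal_norm]

theorem sum_norm_sq_le (a : ι → ℂ) : (∑ i, ‖a i‖) ^ 2 ≤ Fintype.card ι * ∑ i, ‖a i‖ ^ 2 := by
  have := sq_sum_le_card_mul_sum_sq (s := (Finset.univ : Finset ι)) (f := fun i => ‖a i‖)
  simpa using this

theorem sqrt_ofReal_mul_sq {x y : ℝ} (hx : 0 ≤ x) (hy : 0 ≤ y) :
    ENNReal.ofReal (x * y ^ 2) ^ (1 / 2 : ℝ) = ENNReal.ofReal x ^ (1 / 2 : ℝ) * ENNReal.ofReal y := by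
  rw [ENNReal.ofReal_mul hx, ENNReal.mul_rpow_of_nonneg _ _ (by norm_num : (0 : ℝ) ≤ 1 / 2),
    ENNReal.ofReal_pow hy, ← ENNReal.rpow_two, ← ENNReal.rpow_mul]
  norm_num

/-- the pointwise estimate at one frequency -/
theorem point_freq {c : ℝ} (hY : ∀ (s : ι → ℝ) (ρ : ℝ),
      0 ≤ ρ → (∀ i j, i ≠ j → 3 * ρ ≤ |s i - s j|) → (∀ i j, i ≠ j → s i ≠ s j) →
      ∀ (a : ι → ℝ), (∀ i, 0 ≤ a i) → ∀ p : ℝ, 4 / 3 ≤ p →
      p ≤ 4 / 3 + c / Real.log (Fintype.card ι + 2) →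
      ∑ i, ∑ j, ∑ k, ∑ l, (if |s i + s j - s k - s l| ≤ ρ then a i * a j * a k * a l else 0) ≤
        (∑ i, a i ^ p) ^ (4 / p))
    (a : ι → ℂ) (s : ι → ℝ) {ρ X θ0 p : ℝ} (hρ : 0 < ρ) (hX : 0 < X) (hθ : 0 < θ0)
    (hsep : ∀ i j, i ≠ j → 3 * ρ ≤ |s i - s j|) (hp : 4 / 3 ≤ p)
    (hp' : p ≤ 4 / 3 + c / Real.log (Fintype.card ι + 2)) (θ : ℝ) :
    (∫⁻ t in Set.Ioc 0 X, (‖tsum4 a s (-2 * Real.pi * θ) t‖ₑ ^ 2) ^ 2) ^ (1 / 2 : ℝ) ≤
      ENNReal.ofReal X ^ (1 / 2 : ℝ) * (∑ i, ‖a i‖ₑ ^ p) ^ (2 / p) +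
        ENNReal.ofReal (1 / (Real.pi * θ0 * ρ)) ^ (1 / 2 : ℝ) *
          (Fintype.card ι * ∑ i, ‖a i‖ₑ ^ 2) +
        ENNReal.ofReal X ^ (1 / 2 : ℝ) * (Fintype.card ι *
          ∑ i, (Set.Ioo (-θ0) θ0).indicator (fun _ => ‖a i‖ₑ ^ 2) θ) := by
  have hp0 : 0 < p := by linarith
  set R : ℝ := Fintype.card ι * ∑ i, ‖a i‖ ^ 2 with hR
  have hR0 : 0 ≤ R := by positivity
  set P : ℝ := (∑ i, ‖a i‖ ^ p) ^ (2 / p) with hP
  have hP0 : 0 ≤ P := by positivity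
  have hcont := continuous_tsum4 a s (-2 * Real.pi * θ)
  by_cases hlow : θ ∈ Set.Ioo (-θ0) θ0
  · -- low frequency
    have h1 : ∀ t, (‖tsum4 a s (-2 * Real.pi * θ) t‖ₑ ^ 2) ^ 2 ≤ ENNReal.ofReal (R ^ 2) := by
      intro t
      rw [← ofReal_norm, ← ENNReal.ofReal_pow (norm_nonneg _), ← ENNReal.ofReal_pow (by positivity)]
      apply ENNReal.ofReal_le_ofReal
      have h2 := norm_tsum4_le a s (-2 * Real.pi * θ) t
      have h3 : ‖tsum4 a s (-2 * Real.pi * θ) t‖ ^ 2 ≤ R :=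
        (pow_le_pow_left₀ (norm_nonneg _) h2 2).trans (sum_norm_sq_le a)
      exact pow_le_pow_left₀ (by positivity) h3 2
    have h2 : ∫⁻ t in Set.Ioc 0 X, (‖tsum4 a s (-2 * Real.pi * θ) t‖ₑ ^ 2) ^ 2
        ≤ ENNReal.ofReal (X * R ^ 2) := by
      refine (setLIntegral_mono measurable_const fun t _ => h1 t).trans ?_
      rw [setLIntegral_const, Real.volume_Ioc, sub_zero, mul_comm, ENNReal.ofReal_mul hX.le]
    refine (ENNReal.rpow_le_rpow h2 (by norm_num)).trans ?_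
    rw [sqrt_ofReal_mul_sq hX.le hR0, hR, ofReal_card_sum]
    have h3 : ∀ i, (Set.Ioo (-θ0) θ0).indicator (fun _ => ‖a i‖ₑ ^ 2) θ = ‖a i‖ₑ ^ 2 := by
      intro i
      rw [Set.indicator_of_mem hlow]
    simp only [h3]
    exact le_add_self
  · -- high frequency
    have hθ1 : θ0 ≤ |θ| := by
      by_contra hc
      rw [not_le, abs_lt] at hc
      exact hlow ⟨hc.1, hc.2⟩
    have hθpos : 0 < |θ| := lt_of_lt_of_le hθ hθ1
    have hω : -2 * Real.pi * θ ≠ 0 := by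
      have : θ ≠ 0 := abs_pos.1 hθpos
      have := Real.pi_pos.ne'
      positivity
    have h1 := avg4 a s hω hX.le hρ
    have hQ : (∑ i, ∑ j, ∑ k, ∑ l, (if |s i + s j - s k - s l| ≤ ρ then
        ‖a i‖ * ‖a j‖ * ‖a k‖ * ‖a l‖ else 0)) ≤ P ^ 2 := by
      have h2 := hY s ρ hρ.le hsep (fun i j hij h => by
        have := hsep i j hij
        rw [h, sub_self, abs_zero] at this
        linarith) (fun i => ‖a i‖) (fun i => norm_nonneg _) p hp hp'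
      refine h2.trans (le_of_eq ?_)
      rw [hP, ← Real.rpow_natCast ((∑ i, ‖a i‖ ^ p) ^ (2 / p)) 2, ← Real.rpow_mul (by positivity)]
      congr 1
      push_cast
      ring
    have hB : 2 / (|-2 * Real.pi * θ| * ρ) ≤ 1 / (Real.pi * θ0 * ρ) := by
      have e : |-2 * Real.pi * θ| = 2 * Real.pi * |θ| := by
        rw [abs_mul, abs_mul]
        norm_num
        left
        exact Real.pi_pos.le
      rw [e, div_le_div_iff₀ (by positivity) (by positivity)]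
      have : Real.pi * θ0 * ρ ≤ Real.pi * |θ| * ρ := by gcongr
      linarith
    have hS4 : (∑ i, ‖a i‖) ^ 4 ≤ R ^ 2 := by
      have := pow_le_pow_left₀ (by positivity) (sum_norm_sq_le a) 2
      calc (∑ i, ‖a i‖) ^ 4 = ((∑ i, ‖a i‖) ^ 2) ^ 2 := by ring
        _ ≤ _ := this
    have h3 : ∫ t in (0 : ℝ)..X, ‖tsum4 a s (-2 * Real.pi * θ) t‖ ^ 4 ≤
        X * P ^ 2 + 1 / (Real.pi * θ0 * ρ) * R ^ 2 := by
      refine h1.trans (add_le_add (by gcongr) ?_)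
      exact mul_le_mul hB hS4 (by positivity) (by positivity)
    have h4 : ∫⁻ t in Set.Ioc 0 X, (‖tsum4 a s (-2 * Real.pi * θ) t‖ₑ ^ 2) ^ 2
        = ENNReal.ofReal (∫ t in (0 : ℝ)..X, ‖tsum4 a s (-2 * Real.pi * θ) t‖ ^ 4) := by
      rw [intervalIntegral.integral_of_le hX.le, ofReal_integral_eq_lintegral_ofReal]
      · refine lintegral_congr fun t => ?_
        rw [← ofReal_norm, ← ENNReal.ofReal_pow (norm_nonneg _),
          ← ENNReal.ofReal_pow (by positivity)]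
        congr 1
        ring
      · have : IntervalIntegrable (fun t => ‖tsum4 a s (-2 * Real.pi * θ) t‖ ^ 4) volume 0 X :=
          Continuous.intervalIntegrable (by fun_prop) _ _
        exact (intervalIntegrable_iff_integrableOn_Ioc_of_le hX.le).1 this
      · exact Filter.Eventually.of_forall fun t => by positivity
    have h5 : ENNReal.ofReal (∫ t in (0 : ℝ)..X, ‖tsum4 a s (-2 * Real.pi * θ) t‖ ^ 4) ≤
        ENNReal.ofReal (X * P ^ 2) + ENNReal.ofReal (1 / (Real.pi * θ0 * ρ) * R ^ 2) := by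
      rw [← ENNReal.ofReal_add (by positivity) (by positivity)]
      exact ENNReal.ofReal_le_ofReal h3
    rw [h4]
    refine (ENNReal.rpow_le_rpow h5 (by norm_num)).trans ?_
    refine (ENNReal.rpow_add_le_add_rpow _ _ (by norm_num) (by norm_num)).trans ?_
    rw [sqrt_ofReal_mul_sq hX.le hP0, sqrt_ofReal_mul_sq (by positivity) hR0, hR, ofReal_card_sum, hP,
      ofReal_sum_rpow a hp0]
    exact le_self_add

/-- **[VNODE]**, for a fixed index type. -/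
theorem vnode_core {c : ℝ} (hY : ∀ (s : ι → ℝ) (ρ : ℝ),
      0 ≤ ρ → (∀ i j, i ≠ j → 3 * ρ ≤ |s i - s j|) → (∀ i j, i ≠ j → s i ≠ s j) →
      ∀ (a : ι → ℝ), (∀ i, 0 ≤ a i) → ∀ p : ℝ, 4 / 3 ≤ p →
      p ≤ 4 / 3 + c / Real.log (Fintype.card ι + 2) →
      ∑ i, ∑ j, ∑ k, ∑ l, (if |s i + s j - s k - s l| ≤ ρ then a i * a j * a k * a l else 0) ≤
        (∑ i, a i ^ p) ^ (4 / p))
    {g : ι → ℝ → ℂ} (hg : ∀ i, Prof (g i)) (s : ι → ℝ) {ρ X θ0 p : ℝ} (hρ : 0 < ρ) (hX : 0 < X)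
    (hθ : 0 < θ0) (hsep : ∀ i j, i ≠ j → 3 * ρ ≤ |s i - s j|) (hp : 4 / 3 ≤ p)
    (hp' : p ≤ 4 / 3 + c / Real.log (Fintype.card ι + 2)) (hp2 : p ≤ 2) :
    ∫⁻ t in Set.Ioc 0 X, (∫⁻ v, ‖mov g s t v‖ₑ ^ 2) ^ 2 ≤
      ENNReal.ofReal X * ((∑ i, (∫⁻ v, ‖g i v‖ₑ ^ 2) ^ (p / 2)) ^ (2 / p) +
        Fintype.card ι * (ENNReal.ofReal (1 / (Real.pi * θ0 * ρ * X)) ^ (1 / 2 : ℝ) *
          ∑ i, (∫⁻ v, ‖g i v‖ₑ ^ 2) + ∑ i, ∫⁻ θ in Set.Ioo (-θ0) θ0, ‖𝓕 (g i) θ‖ₑ ^ 2)) ^ 2 := by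
  have hp0 : 0 < p := by linarith
  have hgc : ∀ i, Continuous (𝓕 (g i)) := fun i => continuous_fourier_prof (hg i).i1
  have hpl : ∀ i, ∫⁻ v, ‖g i v‖ₑ ^ 2 = ∫⁻ θ, ‖𝓕 (g i) θ‖ₑ ^ 2 := fun i =>
    (HL.lintegral_enorm_sq_fourier _ (hg i).i1 (hg i).i2).symm
  set h : ℝ → ℝ → ℝ≥0∞ := fun t θ =>
    ‖tsum4 (fun i => 𝓕 (g i) θ) s (-2 * Real.pi * θ) t‖ₑ ^ 2 with hh
  have hm : Measurable (Function.uncurry h) := by
    have : Continuous fun q : ℝ × ℝ => tsum4 (fun i => 𝓕 (g i) q.2) s (-2 * Real.pi * q.2) q.1 := by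
      unfold tsum4
      fun_prop
    exact (this.measurable.enorm).pow_const 2
  have e1 : ∫⁻ t in Set.Ioc 0 X, (∫⁻ v, ‖mov g s t v‖ₑ ^ 2) ^ 2
      = ∫⁻ t in Set.Ioc 0 X, (∫⁻ θ, h t θ) ^ 2 := by
    refine lintegral_congr fun t => ?_
    rw [plancherel_mov hg]
  rw [e1]
  refine (mink2 _ _ h hm).trans ?_
  set A : ι → ℝ≥0∞ := fun i => ∫⁻ v, ‖g i v‖ₑ ^ 2 with hA
  set L : ι → ℝ≥0∞ := fun i => ∫⁻ θ in Set.Ioo (-θ0) θ0, ‖𝓕 (g i) θ‖ₑ ^ 2 with hL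
  have hgm : ∀ i, Measurable fun θ => ‖𝓕 (g i) θ‖ₑ := fun i => (hgc i).measurable.enorm
  have key : ∫⁻ θ, (∫⁻ t in Set.Ioc 0 X, h t θ ^ 2) ^ (1 / 2 : ℝ) ≤
      ENNReal.ofReal X ^ (1 / 2 : ℝ) * (∑ i, A i ^ (p / 2)) ^ (2 / p) +
        ENNReal.ofReal (1 / (Real.pi * θ0 * ρ)) ^ (1 / 2 : ℝ) * (Fintype.card ι * ∑ i, A i) +
        ENNReal.ofReal X ^ (1 / 2 : ℝ) * (Fintype.card ι * ∑ i, L i) := by
    calc ∫⁻ θ, (∫⁻ t in Set.Ioc 0 X, h t θ ^ 2) ^ (1 / 2 : ℝ)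
        ≤ ∫⁻ θ, (ENNReal.ofReal X ^ (1 / 2 : ℝ) * (∑ i, ‖𝓕 (g i) θ‖ₑ ^ p) ^ (2 / p) +
          ENNReal.ofReal (1 / (Real.pi * θ0 * ρ)) ^ (1 / 2 : ℝ) *
            (Fintype.card ι * ∑ i, ‖𝓕 (g i) θ‖ₑ ^ 2) +
          ENNReal.ofReal X ^ (1 / 2 : ℝ) * (Fintype.card ι *
            ∑ i, (Set.Ioo (-θ0) θ0).indicator (fun θ => ‖𝓕 (g i) θ‖ₑ ^ 2) θ)) := by
          refine lintegral_mono fun θ => ?_
          have := point_freq hY (fun i => 𝓕 (g i) θ) s hρ hX hθ hsep hp hp' θ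
          exact this.trans (le_of_eq (by congr 3))
      _ ≤ _ := by
          have m1 : Measurable fun θ => (∑ i, ‖𝓕 (g i) θ‖ₑ ^ p) ^ (2 / p) :=
            (Finset.measurable_sum _ fun i _ => (hgm i).pow_const p).pow_const _
          have m2 : Measurable fun θ => ∑ i, ‖𝓕 (g i) θ‖ₑ ^ 2 :=
            Finset.measurable_sum _ fun i _ => (hgm i).pow_const 2
          have m3' : ∀ i, Measurable ((Set.Ioo (-θ0) θ0).indicator fun θ => ‖𝓕 (g i) θ‖ₑ ^ 2) :=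
            fun i => ((hgm i).pow_const 2).indicator measurableSet_Ioo
          have m3 : Measurable fun θ => ∑ i,
              (Set.Ioo (-θ0) θ0).indicator (fun θ => ‖𝓕 (g i) θ‖ₑ ^ 2) θ :=
            Finset.measurable_sum _ fun i _ => m3' i
          rw [lintegral_add_right _ ((m3.const_mul _).const_mul _),
            lintegral_add_right _ ((m2.const_mul _).const_mul _),
            lintegral_const_mul _ m1, lintegral_const_mul _ (m2.const_mul _),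
            lintegral_const_mul _ m2, lintegral_const_mul _ (m3.const_mul _),
            lintegral_const_mul _ m3, lintegral_finsetSum _ fun i _ => (hgm i).pow_const 2,
            lintegral_finsetSum _ fun i _ => m3' i]
          have q1 : ∫⁻ θ, (∑ i, ‖𝓕 (g i) θ‖ₑ ^ p) ^ (2 / p) ≤ (∑ i, A i ^ (p / 2)) ^ (2 / p) := by
            refine (mink_p volume Finset.univ (fun i θ => ‖𝓕 (g i) θ‖ₑ) hgm hp0 hp2).trans
              (le_of_eq ?_)
            simp only [hA, hpl]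
          have q2 : ∑ i, ∫⁻ θ, ‖𝓕 (g i) θ‖ₑ ^ 2 = ∑ i, A i := by
            simp only [hA, hpl]
          have q3 : ∑ i, ∫⁻ θ, (Set.Ioo (-θ0) θ0).indicator (fun θ => ‖𝓕 (g i) θ‖ₑ ^ 2) θ
              = ∑ i, L i := by
            refine Finset.sum_congr rfl fun i _ => ?_
            rw [lintegral_indicator measurableSet_Ioo]
          rw [q2, q3]
          gcongr
  have hXe : ENNReal.ofReal (1 / (Real.pi * θ0 * ρ)) ^ (1 / 2 : ℝ) =
      ENNReal.ofReal X ^ (1 / 2 : ℝ) * ENNReal.ofReal (1 / (Real.pi * θ0 * ρ * X)) ^ (1 / 2 : ℝ) := by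
    rw [← ENNReal.mul_rpow_of_nonneg _ _ (by norm_num : (0 : ℝ) ≤ 1 / 2),
      ← ENNReal.ofReal_mul hX.le]
    congr 2
    field_simp
  calc (∫⁻ θ, (∫⁻ t in Set.Ioc 0 X, h t θ ^ 2) ^ (1 / 2 : ℝ)) ^ 2
      ≤ (ENNReal.ofReal X ^ (1 / 2 : ℝ) * (∑ i, A i ^ (p / 2)) ^ (2 / p) +
        ENNReal.ofReal (1 / (Real.pi * θ0 * ρ)) ^ (1 / 2 : ℝ) * (Fintype.card ι * ∑ i, A i) +
        ENNReal.ofReal X ^ (1 / 2 : ℝ) * (Fintype.card ι * ∑ i, L i)) ^ 2 := by gcongr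
    _ = (ENNReal.ofReal X ^ (1 / 2 : ℝ) * ((∑ i, A i ^ (p / 2)) ^ (2 / p) +
        Fintype.card ι * (ENNReal.ofReal (1 / (Real.pi * θ0 * ρ * X)) ^ (1 / 2 : ℝ) *
          ∑ i, A i + ∑ i, L i))) ^ 2 := by
        rw [hXe]
        ring
    _ = _ := by
        rw [mul_pow]
        congr 1
        rw [← ENNReal.rpow_two, ← ENNReal.rpow_mul]
        norm_num

end Vale.Agent.P112.H172
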